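import Mathlib

/-!
# P132 route A: Fourier coefficients of vector functions on a period

Bessel's inequality, an approximate Parseval inequality, and concentration of the coefficients of a
function which is almost an eigenfunction of translations.
-/

noncomputable section

set_option linter.unusedSectionVars false

namespace P132.RouteA

open MeasureTheory Complex Filter Topology
open scoped InnerProductSpace ComplexConjugate Real

variable {E : Type*} [NormedAddCommGroup E] [InnerProductSpace ℂ E] [CompleteSpace E]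

/-- The period `2π/δ`. -/
def per (δ : ℝ) : ℝ := 2 * π / δ

theorem per_pos {δ : ℝ} (hδ : 0 < δ) : 0 < per δ := by unfold per; positivity

/-- The character `τ ↦ exp (i m δ τ)`. -/
def ch (δ : ℝ) (m : ℤ) (τ : ℝ) : ℂ := Complex.exp ((((m : ℝ) * δ * τ : ℝ) : ℂ) * I)

theorem norm_ch (δ : ℝ) (m : ℤ) (τ : ℝ) : ‖ch δ m τ‖ = 1 := norm_exp_ofReal_mul_I _

@[fun_prop]
theorem continuous_ch (δ : ℝ) (m : ℤ) : Continuous (ch δ m) := by unfold ch; fun_prop

theorem ch_add (δ : ℝ) (m : ℤ) (s t : ℝ) : ch δ m (s + t) = ch δ m s * ch δ m t := by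
  simp only [ch, ← Complex.exp_add]; push_cast; ring_nf

theorem ch_mul (δ : ℝ) (m n : ℤ) (t : ℝ) : ch δ m t * ch δ n t = ch δ (m + n) t := by
  simp only [ch, ← Complex.exp_add]; push_cast; ring_nf

theorem conj_ch (δ : ℝ) (m : ℤ) (t : ℝ) : conj (ch δ m t) = ch δ (-m) t := by
  simp only [ch, ← Complex.exp_conj, map_mul, conj_ofReal, conj_I]; push_cast; ring_nf

/-- The mean over the period. -/
def pmean (δ : ℝ) (f : ℝ → ℝ) : ℝ := (per δ)⁻¹ * ∫ τ in -(per δ / 2)..(per δ / 2), f τ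

/-- The Fourier coefficient over the period. -/
def coef (δ : ℝ) (m : ℤ) (G : ℝ → E) : E :=
  (((per δ)⁻¹ : ℝ) : ℂ) • ∫ τ in -(per δ / 2)..(per δ / 2), ch δ m τ • G τ

variable {δ : ℝ}

theorem pmean_mono (hδ : 0 < δ) {f g : ℝ → ℝ} (hf : Continuous f) (hg : Continuous g)
    (h : ∀ τ, f τ ≤ g τ) : pmean δ f ≤ pmean δ g := by
  have := per_pos hδ
  refine mul_le_mul_of_nonneg_left ?_ (by positivity)
  exact intervalIntegral.integral_mono_on (by linarith) (hf.intervalIntegrable _ _)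
    (hg.intervalIntegrable _ _) fun τ _ => h τ

theorem pmean_const (hδ : 0 < δ) (c : ℝ) : pmean δ (fun _ => c) = c := by
  have := per_pos hδ
  simp [pmean]; field_simp

theorem pmean_le_const (hδ : 0 < δ) {f : ℝ → ℝ} (hf : Continuous f) {c : ℝ} (h : ∀ τ, f τ ≤ c) :
    pmean δ f ≤ c :=
  (pmean_mono hδ hf continuous_const h).trans (pmean_const hδ c).le

theorem pmean_add {f g : ℝ → ℝ} (hf : Continuous f) (hg : Continuous g) :
    pmean δ (fun τ => f τ + g τ) = pmean δ f + pmean δ g := by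
  rw [pmean, pmean, pmean, intervalIntegral.integral_add (hf.intervalIntegrable _ _)
    (hg.intervalIntegrable _ _), mul_add]

theorem pmean_const_mul (c : ℝ) (f : ℝ → ℝ) : pmean δ (fun τ => c * f τ) = c * pmean δ f := by
  rw [pmean, pmean, intervalIntegral.integral_const_mul]; ring

/-- Orthogonality of the characters. -/
theorem integral_ch (hδ : 0 < δ) (m : ℤ) :
    ∫ τ in -(per δ / 2)..(per δ / 2), ch δ m τ = if m = 0 then (per δ : ℂ) else 0 := by
  split_ifs with h
  · subst h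
    simp [ch]
  · have e : ∀ τ : ℝ, ch δ m τ = Complex.exp (((m : ℝ) * δ : ℝ) * I * (τ : ℂ)) := fun τ => by
      simp only [ch]; push_cast; ring_nf
    have hc : (((m : ℝ) * δ : ℝ) : ℂ) * I ≠ 0 := by simp [h, hδ.ne']
    simp only [e]
    rw [integral_exp_mul_complex hc, div_eq_zero_iff]
    left
    rw [sub_eq_zero, Complex.exp_eq_exp_iff_exists_int]
    refine ⟨m, ?_⟩
    have : (δ : ℂ) ≠ 0 := by exact_mod_cast hδ.ne'
    simp only [per]
    push_cast
    field_simp
    ring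

/-- A trigonometric polynomial. -/
def trig (δ : ℝ) (s : Finset ℤ) (v : ℤ → E) (τ : ℝ) : E := ∑ k ∈ s, ch δ (-k) τ • v k

theorem continuous_trig (s : Finset ℤ) (v : ℤ → E) : Continuous (trig δ s v) := by
  unfold trig; fun_prop

theorem integral_inner_trig {G : ℝ → E} (hG : Continuous G) (s : Finset ℤ) (v : ℤ → E) :
    ∫ τ in -(per δ / 2)..(per δ / 2), ⟪trig δ s v τ, G τ⟫_ℂ
      = ∑ k ∈ s, ⟪v k, ∫ τ in -(per δ / 2)..(per δ / 2), ch δ k τ • G τ⟫_ℂ := by
  have e : ∀ τ, ⟪trig δ s v τ, G τ⟫_ℂ = ∑ k ∈ s, ⟪v k, ch δ k τ • G τ⟫_ℂ := fun τ => by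
    simp only [trig, sum_inner, inner_smul_left, inner_smul_right, conj_ch, neg_neg]
  simp only [e]
  rw [intervalIntegral.integral_finsetSum fun k _ =>
    (Continuous.inner continuous_const ((continuous_ch δ k).smul hG)).intervalIntegrable _ _]
  refine Finset.sum_congr rfl fun k _ => ?_
  exact (innerSL ℂ (v k)).intervalIntegral_comp_comm
    (((continuous_ch δ k).smul hG).intervalIntegrable _ _)

theorem pmean_norm_trig (hδ : 0 < δ) (s : Finset ℤ) (v : ℤ → E) :
    pmean δ (fun τ => ‖trig δ s v τ‖ ^ 2) = ∑ k ∈ s, ‖v k‖ ^ 2 := by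
  have hP := per_pos hδ
  have h := integral_inner_trig (δ := δ) (continuous_trig (δ := δ) s v) s v
  have e : ∀ k ∈ s, (∫ τ in -(per δ / 2)..(per δ / 2), ch δ k τ • trig δ s v τ)
      = (per δ : ℂ) • v k := by
    intro k hk
    have e1 : ∀ τ, ch δ k τ • trig δ s v τ = ∑ l ∈ s, ch δ (k - l) τ • v l := fun τ => by
      simp [trig, Finset.smul_sum, smul_smul, ch_mul, sub_eq_add_neg]
    simp only [e1]
    rw [intervalIntegral.integral_finsetSum (f := fun l τ => ch δ (k - l) τ • v l)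
      fun l _ => ((continuous_ch δ _).smul continuous_const).intervalIntegrable _ _]
    simp only [intervalIntegral.integral_smul_const, integral_ch hδ, sub_eq_zero, ite_smul,
      zero_smul]
    simp [Finset.sum_ite_eq, hk]
  simp only [inner_self_eq_norm_sq_to_K] at h
  rw [Finset.sum_congr rfl fun k hk => congrArg (fun w => ⟪v k, w⟫_ℂ) (e k hk)] at h
  simp only [inner_smul_right, inner_self_eq_norm_sq_to_K, ← Finset.mul_sum, ← ofReal_pow,
    RCLike.ofReal_eq_complex_ofReal] at h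
  rw [intervalIntegral.integral_ofReal] at h
  norm_cast at h
  rw [pmean, h, ← mul_assoc, inv_mul_cancel₀ hP.ne', one_mul]

/-- Bessel's inequality. -/
theorem bessel (hδ : 0 < δ) {G : ℝ → E} (hG : Continuous G) (s : Finset ℤ) :
    ∑ k ∈ s, ‖coef δ k G‖ ^ 2 ≤ pmean δ fun τ => ‖G τ‖ ^ 2 := by
  have hP := per_pos hδ
  set v : ℤ → E := fun k => coef δ k G with hv
  have hT := continuous_trig (δ := δ) s v
  have h0 : 0 ≤ pmean δ fun τ => ‖G τ - trig δ s v τ‖ ^ 2 :=
    mul_nonneg (by positivity)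
      (intervalIntegral.integral_nonneg (by linarith) fun τ _ => sq_nonneg _)
  have e : ∀ τ, ‖G τ - trig δ s v τ‖ ^ 2
      = ‖G τ‖ ^ 2 + ‖trig δ s v τ‖ ^ 2 + (-2) * RCLike.re ⟪trig δ s v τ, G τ⟫_ℂ := fun τ => by
    rw [@norm_sub_sq ℂ, inner_re_symm]; ring
  simp only [e] at h0
  have hc : Continuous fun τ => RCLike.re ⟪trig δ s v τ, G τ⟫_ℂ :=
    RCLike.continuous_re.comp (hT.inner hG)
  have hc' : Continuous fun τ => ⟪trig δ s v τ, G τ⟫_ℂ := hT.inner hG
  rw [pmean_add (f := fun τ => ‖G τ‖ ^ 2 + ‖trig δ s v τ‖ ^ 2) (by fun_prop)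
      (g := fun τ => (-2) * RCLike.re ⟪trig δ s v τ, G τ⟫_ℂ) (continuous_const.mul hc),
    pmean_add (by fun_prop) (by fun_prop), pmean_norm_trig hδ, pmean_const_mul] at h0
  have hre : pmean δ (fun τ => RCLike.re ⟪trig δ s v τ, G τ⟫_ℂ) = ∑ k ∈ s, ‖v k‖ ^ 2 := by
    rw [pmean]
    have := (RCLike.reCLM (K := ℂ)).intervalIntegral_comp_comm
      (μ := volume) (a := -(per δ / 2)) (b := per δ / 2) (hc'.intervalIntegrable _ _)
    simp only [RCLike.reCLM_apply] at this
    rw [this, integral_inner_trig hG, map_sum, Finset.mul_sum]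
    refine Finset.sum_congr rfl fun k _ => ?_
    have hk : ∫ τ in -(per δ / 2)..(per δ / 2), ch δ k τ • G τ = (per δ : ℂ) • v k := by
      rw [hv]; simp only [coef]; rw [smul_smul, ← ofReal_mul, mul_inv_cancel₀ hP.ne', ofReal_one,
        one_smul]
    rw [hk, inner_smul_right, inner_self_eq_norm_sq_to_K]
    simp only [← ofReal_pow, RCLike.ofReal_eq_complex_ofReal, ← ofReal_mul, RCLike.re_to_complex,
      ofReal_re]
    field_simp
  rw [hre] at h0
  linarith

/-- Scalar Parseval. -/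
theorem parseval_scalar (hδ : 0 < δ) {f : ℝ → ℂ} (hf : Continuous f) {ε : ℝ} (hε : 0 < ε) :
    ∃ s : Finset ℤ, pmean δ (fun τ => ‖f τ‖ ^ 2) ≤ (∑ k ∈ s, ‖coef δ k f‖ ^ 2) + ε := by
  have hP := per_pos hδ
  have hab : -(per δ / 2) < per δ / 2 := by linarith
  have hm : MemLp f 2 (volume.restrict (Set.Ioc (-(per δ / 2)) (per δ / 2))) :=
    haveI : IsFiniteMeasure (volume.restrict (Set.Ioc (-(per δ / 2)) (per δ / 2))) :=
      ⟨by simp⟩
    MemLp.of_bound hf.aestronglyMeasurable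
      (⨆ x : Set.Icc (-(per δ / 2)) (per δ / 2), ‖f x‖)
      ((ae_restrict_mem measurableSet_Ioc).mono fun x hx =>
        le_ciSup (f := fun x : Set.Icc (-(per δ / 2)) (per δ / 2) => ‖f x‖)
          (isCompact_range (by fun_prop)).bddAbove ⟨x, Set.Ioc_subset_Icc_self hx⟩)
  have h := hasSum_sq_fourierCoeffOn hab hm
  obtain ⟨s, hs⟩ := (h.eventually (Ioi_mem_nhds (sub_lt_self _ hε))).exists
  classical
  refine ⟨s.image (fun n => -n), ?_⟩
  rw [Finset.sum_image fun a _ b _ h => neg_injective h]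
  have e : ∀ n, fourierCoeffOn hab f n = coef δ (-n) f := fun n => by
    rw [fourierCoeffOn_eq_integral, coef, Complex.real_smul, smul_eq_mul]
    congr 1
    · norm_num
    · refine intervalIntegral.integral_congr fun τ _ => ?_
      rw [fourier_coe_apply]
      simp only [smul_eq_mul, ch, per]
      congr 2
      have : (δ : ℂ) ≠ 0 := by exact_mod_cast hδ.ne'
      have : (π : ℂ) ≠ 0 := by exact_mod_cast Real.pi_ne_zero
      push_cast
      field_simp
      ring
  have e2 : (per δ / 2 - -(per δ / 2))⁻¹ • (∫ x in -(per δ / 2)..(per δ / 2), ‖f x‖ ^ 2)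
      = pmean δ fun τ => ‖f τ‖ ^ 2 := by
    rw [pmean, smul_eq_mul]; ring_nf
  simp only [e, e2] at hs
  exact le_of_lt (sub_lt_iff_lt_add.1 hs)

/-- Approximate Parseval for vector functions. -/
theorem parseval (hδ : 0 < δ) {G : ℝ → E} (hG : Continuous G) {ε : ℝ} (hε : 0 < ε) :
    ∃ s : Finset ℤ, pmean δ (fun τ => ‖G τ‖ ^ 2) ≤ (∑ k ∈ s, ‖coef δ k G‖ ^ 2) + ε := by
  classical
  have hP := per_pos hδ
  obtain ⟨t, -, htfin, ht⟩ := finite_cover_balls_of_compact
    ((isCompact_Icc (a := -(per δ / 2)) (b := per δ / 2)).image hG)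
    (e := Real.sqrt (ε / 2)) (by positivity)
  set K : Submodule ℂ E := Submodule.span ℂ t
  have : FiniteDimensional ℂ K := FiniteDimensional.span_of_finite ℂ htfin
  set b := stdOrthonormalBasis ℂ K with hb
  set d := Module.finrank ℂ K
  have hd : 0 < ε / 2 / (d + 1) := by positivity
  choose s hs using fun i : Fin d =>
    parseval_scalar hδ (f := fun τ => ⟪(b i : E), G τ⟫_ℂ) (continuous_const.inner hG) hd
  refine ⟨Finset.univ.biUnion s, ?_⟩
  have hpt : ∀ τ ∈ Set.Icc (-(per δ / 2)) (per δ / 2),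
      ‖G τ‖ ^ 2 ≤ (∑ i, ‖⟪(b i : E), G τ⟫_ℂ‖ ^ 2) + ε / 2 := by
    intro τ hτ
    obtain ⟨w, hw, hball⟩ := Set.mem_iUnion₂.1 (ht (Set.mem_image_of_mem G hτ))
    have h1 : ‖G τ - K.starProjection (G τ)‖ ≤ ‖G τ - w‖ := by
      rw [Submodule.starProjection_minimal]
      exact ciInf_le ⟨0, by rintro _ ⟨x, rfl⟩; exact norm_nonneg _⟩
        (⟨w, Submodule.subset_span hw⟩ : K)
    have h2 : ‖G τ - w‖ < Real.sqrt (ε / 2) := by rw [← dist_eq_norm]; exact hball
    have h3 : ‖G τ - K.starProjection (G τ)‖ ^ 2 ≤ ε / 2 := by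
      rw [← Real.sq_sqrt (show (0 : ℝ) ≤ ε / 2 by positivity)]
      exact pow_le_pow_left₀ (norm_nonneg _) (h1.trans h2.le) 2
    have h4 : ‖K.starProjection (G τ)‖ ^ 2 = ∑ i, ‖⟪(b i : E), G τ⟫_ℂ‖ ^ 2 := by
      rw [Submodule.starProjection_apply, ← Submodule.coe_norm, ← b.sum_sq_norm_inner_right]
      refine Finset.sum_congr rfl fun i _ => ?_
      rw [Submodule.coe_inner, ← Submodule.starProjection_apply,
        ← Submodule.inner_starProjection_left_eq_right,
        Submodule.starProjection_eq_self_iff.2 (b i).2]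
    have h5 := K.norm_sq_eq_add_norm_sq_starProjection (G τ)
    rw [Submodule.starProjection_orthogonal_val] at h5
    linarith
  have hcont : ∀ i, Continuous fun τ => ‖⟪(b i : E), G τ⟫_ℂ‖ ^ 2 := fun i =>
    (continuous_const.inner hG).norm.pow 2
  have hsum : pmean δ (fun τ => ‖G τ‖ ^ 2)
      ≤ (∑ i, pmean δ fun τ => ‖⟪(b i : E), G τ⟫_ℂ‖ ^ 2) + ε / 2 := by
    have hc2 : Continuous fun τ => ∑ i, ‖⟪(b i : E), G τ⟫_ℂ‖ ^ 2 :=
      continuous_finsetSum _ fun i _ => hcont i
    have : pmean δ (fun τ => ‖G τ‖ ^ 2)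
        ≤ pmean δ fun τ => (∑ i, ‖⟪(b i : E), G τ⟫_ℂ‖ ^ 2) + ε / 2 := by
      refine mul_le_mul_of_nonneg_left ?_ (by positivity)
      exact intervalIntegral.integral_mono_on (by linarith) ((hG.norm.pow 2).intervalIntegrable _ _)
        ((hc2.add continuous_const).intervalIntegrable _ _) hpt
    rw [pmean_add hc2 continuous_const, pmean_const hδ] at this
    refine this.trans_eq ?_
    congr 1
    simp only [pmean, ← Finset.mul_sum]
    rw [intervalIntegral.integral_finsetSum fun i _ => (hcont i).intervalIntegrable _ _]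
  have hco : ∀ i k, coef δ k (fun τ => ⟪(b i : E), G τ⟫_ℂ) = ⟪(b i : E), coef δ k G⟫_ℂ := by
    intro i k
    rw [coef, coef, inner_smul_right, smul_eq_mul]
    congr 1
    have := (innerSL ℂ (b i : E)).intervalIntegral_comp_comm
      (μ := volume) (a := -(per δ / 2)) (b := per δ / 2)
      (((continuous_ch δ k).smul hG).intervalIntegrable _ _)
    simp only [innerSL_apply_apply] at this
    refine Eq.trans ?_ this
    refine intervalIntegral.integral_congr fun τ _ => ?_
    simp [inner_smul_right]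
  have hon : Orthonormal ℂ fun i => (b i : E) := b.orthonormal.comp_linearIsometry K.subtypeₗᵢ
  calc pmean δ (fun τ => ‖G τ‖ ^ 2)
      ≤ (∑ i, pmean δ fun τ => ‖⟪(b i : E), G τ⟫_ℂ‖ ^ 2) + ε / 2 := hsum
    _ ≤ (∑ i, ((∑ k ∈ Finset.univ.biUnion s, ‖⟪(b i : E), coef δ k G⟫_ℂ‖ ^ 2)
          + ε / 2 / (d + 1))) + ε / 2 := by
        gcongr with i
        refine (hs i).trans ?_
        simp only [hco]
        gcongr
        exact Finset.subset_biUnion_of_mem s (Finset.mem_univ i)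
    _ ≤ (∑ k ∈ Finset.univ.biUnion s, ‖coef δ k G‖ ^ 2) + ε := by
        rw [Finset.sum_add_distrib, Finset.sum_comm, Finset.sum_const, Finset.card_univ,
          Fintype.card_fin, nsmul_eq_mul]
        have h1 : ∀ k, ∑ i, ‖⟪(b i : E), coef δ k G⟫_ℂ‖ ^ 2 ≤ ‖coef δ k G‖ ^ 2 := fun k =>
          hon.sum_inner_products_le _
        have h2 : (d : ℝ) * (ε / 2 / (d + 1)) ≤ ε / 2 := by
          rw [← mul_div_assoc, div_le_iff₀ (by positivity)]; nlinarith
        have h3 := Finset.sum_le_sum (s := Finset.univ.biUnion s) fun k _ => h1 k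
        linarith

/-- An upper bound for all partial sums bounds the mean square. -/
theorem pmean_sq_le (hδ : 0 < δ) {G : ℝ → E} (hG : Continuous G) {C : ℝ}
    (h : ∀ s : Finset ℤ, ∑ k ∈ s, ‖coef δ k G‖ ^ 2 ≤ C) :
    pmean δ (fun τ => ‖G τ‖ ^ 2) ≤ C :=
  le_of_forall_pos_le_add fun ε hε =>
    let ⟨s, hs⟩ := parseval hδ hG hε
    hs.trans (by linarith [h s])

/-- Vanishing outside the middle half of the period. -/
def Supp (δ : ℝ) (G : ℝ → E) : Prop := ∀ τ, per δ / 4 ≤ |τ| → G τ = 0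

theorem coef_translate (hδ : 0 < δ) {G : ℝ → E} (hs : Supp δ G) (m : ℤ)
    {θ : ℝ} (hθ : |θ| ≤ per δ / 4) :
    coef δ m (fun τ => G (τ + θ)) = ch δ m (-θ) • coef δ m G := by
  have hP := per_pos hδ
  rw [coef, coef, smul_comm (ch δ m (-θ))]
  congr 1
  have e : ∀ τ, ch δ m τ • G (τ + θ) = ch δ m (-θ) • (ch δ m (τ + θ) • G (τ + θ)) := fun τ => by
    rw [smul_smul, ← ch_add, neg_add_eq_sub, add_sub_cancel_right]
  simp only [e]
  rw [intervalIntegral.integral_smul,
    intervalIntegral.integral_comp_add_right (fun τ => ch δ m τ • G τ) θ]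
  congr 1
  have hsub : ∀ a b : ℝ, a < -(per δ / 4) + θ ∨ a < -(per δ / 4) → per δ / 4 ≤ b →
      a ≤ -(per δ / 4) → (Function.support fun τ => ch δ m τ • G τ) ⊆ Set.Ioc a b := by
    intro a b _ hb ha τ hτ
    have : |τ| < per δ / 4 := lt_of_not_ge fun h => hτ (by simp [hs τ h])
    rw [abs_lt] at this
    exact ⟨by linarith, by linarith⟩
  rw [abs_le] at hθ
  rw [intervalIntegral.integral_eq_integral_of_support_subset
      (hsub _ _ (Or.inl (by linarith)) (by linarith) (by linarith)),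
    intervalIntegral.integral_eq_integral_of_support_subset
      (hsub _ _ (Or.inr (by linarith)) (by linarith) (by linarith))]

theorem sq_norm_exp_sub (a b : ℝ) :
    ‖Complex.exp ((a : ℂ) * I) - Complex.exp ((b : ℂ) * I)‖ ^ 2 = 2 - 2 * Real.cos (a - b) := by
  rw [Complex.sq_norm, Complex.normSq_apply]
  simp only [sub_re, sub_im, exp_ofReal_mul_I_re, exp_ofReal_mul_I_im, Real.cos_sub]
  nlinarith [Real.sin_sq_add_cos_sq a, Real.sin_sq_add_cos_sq b]

/-- The coefficients of an almost eigenfunction of the translations sit near the eigenvalue. -/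
theorem concentrate (hδ : 0 < δ) {G : ℝ → E} (hG : Continuous G) (hs : Supp δ G) {ω b K : ℝ}
    (hb : 0 < b) (hbP : 2 / b ≤ per δ / 4)
    (hK : ∀ θ ∈ Set.Icc (0 : ℝ) (2 / b), ∀ τ,
      ‖G (τ + θ) - Complex.exp (((ω * θ : ℝ) : ℂ) * I) • G τ‖ ≤ K * θ)
    (s : Finset ℤ) (hsb : ∀ m ∈ s, b ≤ |(m : ℝ) * δ + ω|) :
    ∑ m ∈ s, ‖coef δ m G‖ ^ 2 ≤ 2 * K ^ 2 / b ^ 2 := by
  have hθ0 : 0 < 2 / b := by positivity
  have h1 : ∀ θ ∈ Set.Icc (0 : ℝ) (2 / b),
      ∑ m ∈ s, ‖coef δ m G‖ ^ 2 * (2 - 2 * Real.cos (((m : ℝ) * δ + ω) * θ))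
        ≤ K ^ 2 * θ ^ 2 := by
    intro θ hθ
    set G' : ℝ → E := fun τ => G (τ + θ) - Complex.exp (((ω * θ : ℝ) : ℂ) * I) • G τ with hG'
    have hG'c : Continuous G' := by fun_prop
    have e : ∀ m, ‖coef δ m G'‖ ^ 2
        = ‖coef δ m G‖ ^ 2 * (2 - 2 * Real.cos (((m : ℝ) * δ + ω) * θ)) := by
      intro m
      have : coef δ m G' = (ch δ m (-θ) - Complex.exp (((ω * θ : ℝ) : ℂ) * I)) • coef δ m G := by
        rw [sub_smul, ← coef_translate hδ hs m
          (by rw [abs_of_nonneg hθ.1]; linarith [hθ.2] : |θ| ≤ per δ / 4)]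
        simp only [coef, hG', smul_sub, smul_comm _ (Complex.exp (((ω * θ : ℝ) : ℂ) * I))]
        rw [intervalIntegral.integral_sub, intervalIntegral.integral_smul, smul_sub, smul_comm]
        · exact ((continuous_ch δ m).smul (hG.comp (by fun_prop))).intervalIntegrable _ _
        · exact (((continuous_ch δ m).smul hG).const_smul _).intervalIntegrable _ _
      rw [this, norm_smul, mul_pow, ch, sq_norm_exp_sub, mul_comm]
      rw [← Real.cos_neg]
      ring_nf
    refine ((Finset.sum_congr rfl fun m _ => (e m).symm).le.trans (bessel hδ hG'c s)).trans ?_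
    refine pmean_le_const hδ (hG'c.norm.pow 2) fun τ => ?_
    rw [← mul_pow]
    exact pow_le_pow_left₀ (norm_nonneg _) (hK θ hθ τ) 2
  have hint := intervalIntegral.integral_mono_on hθ0.le
    (Continuous.intervalIntegrable (μ := volume) (by fun_prop) _ _)
    (Continuous.intervalIntegrable (μ := volume) (by fun_prop) _ _) h1
  rw [intervalIntegral.integral_finsetSum
    (fun m _ => Continuous.intervalIntegrable (by fun_prop) _ _),
    intervalIntegral.integral_const_mul, integral_pow] at hint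
  have h2 : ∀ m ∈ s, ‖coef δ m G‖ ^ 2 * (2 / b) ≤
      ∫ θ in (0 : ℝ)..(2 / b), ‖coef δ m G‖ ^ 2 * (2 - 2 * Real.cos (((m : ℝ) * δ + ω) * θ)) := by
    intro m hm
    rw [intervalIntegral.integral_const_mul]
    refine mul_le_mul_of_nonneg_left ?_ (sq_nonneg _)
    set y := (m : ℝ) * δ + ω
    have hy : b ≤ |y| := hsb m hm
    have hy0 : y ≠ 0 := fun h => by simp [h] at hy; linarith
    rw [intervalIntegral.integral_sub intervalIntegrable_const
      (Continuous.intervalIntegrable (by fun_prop) _ _), intervalIntegral.integral_const_mul,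
      intervalIntegral.integral_comp_mul_left (fun x => Real.cos x) hy0, integral_cos]
    simp only [intervalIntegral.integral_const, smul_eq_mul, sub_zero, mul_zero, Real.sin_zero]
    have hinv : |y⁻¹ * Real.sin (y * (2 / b))| ≤ 1 / b := by
      rw [abs_mul, abs_inv, one_div]
      calc |y|⁻¹ * |Real.sin (y * (2 / b))| ≤ |y|⁻¹ * 1 := by
            gcongr; exact Real.abs_sin_le_one _
        _ ≤ b⁻¹ := by rw [mul_one]; exact inv_anti₀ hb hy
    have := (abs_le.1 hinv).2
    have e2 : 2 / b = 2 * (1 / b) := by ring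
    linarith
  have h3 := (Finset.sum_le_sum h2).trans hint
  rw [← Finset.sum_mul] at h3
  have h4 : (∑ m ∈ s, ‖coef δ m G‖ ^ 2) * (2 / b) ≤ (4 / 3 * (K ^ 2 / b ^ 2)) * (2 / b) := by
    refine h3.trans_eq ?_
    norm_num
    field_simp
    ring
  have h5 := le_of_mul_le_mul_right h4 hθ0
  have : 0 ≤ K ^ 2 / b ^ 2 := by positivity
  rw [mul_div_assoc]
  linarith

/-! ### The hat function -/

/-- The hat supported by the middle half of the period. -/
def hat (δ τ : ℝ) : ℝ := max 0 (1 - 4 * |τ| / per δ)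

@[fun_prop]
theorem continuous_hat (δ : ℝ) : Continuous (hat δ) := by unfold hat; fun_prop

theorem hat_nonneg (δ τ : ℝ) : 0 ≤ hat δ τ := le_max_left _ _

theorem hat_le_one (hδ : 0 < δ) (τ : ℝ) : hat δ τ ≤ 1 := by
  have := per_pos hδ
  exact max_le zero_le_one (by linarith [show 0 ≤ 4 * |τ| / per δ by positivity])

theorem hat_neg (δ τ : ℝ) : hat δ (-τ) = hat δ τ := by simp [hat]

theorem hat_eq_zero (hδ : 0 < δ) {τ : ℝ} (h : per δ / 4 ≤ |τ|) : hat δ τ = 0 := by
  have := per_pos hδ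
  refine max_eq_left (sub_nonpos.2 ?_)
  rw [le_div_iff₀ this]; linarith

theorem hat_lip (hδ : 0 < δ) (s t : ℝ) : |hat δ s - hat δ t| ≤ 4 / per δ * |s - t| := by
  have hP := per_pos hδ
  refine (abs_max_sub_max_le_max _ _ _ _).trans ?_
  rw [sub_self, abs_zero, max_eq_right (abs_nonneg _)]
  rw [show (1 - 4 * |s| / per δ) - (1 - 4 * |t| / per δ) = 4 / per δ * (|t| - |s|) by ring,
    abs_mul, abs_of_pos (show 0 < 4 / per δ by positivity), abs_sub_comm s t]
  exact mul_le_mul_of_nonneg_left (abs_abs_sub_abs_le_abs_sub _ _) (by positivity)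

/-- The mean of the squared hat, independent of the period. -/
def hatSq : ℝ := ∫ u in (-(1 / 2) : ℝ)..(1 / 2), (max 0 (1 - 4 * |u|)) ^ 2

theorem hatSq_pos : 0 < hatSq :=
  intervalIntegral.integral_pos (by norm_num) (by fun_prop) (fun _ _ => sq_nonneg _)
    ⟨0, ⟨by norm_num, by norm_num⟩, by norm_num⟩

theorem pmean_hat_sq (hδ : 0 < δ) : pmean δ (fun τ => hat δ τ ^ 2) = hatSq := by
  have hP := per_pos hδ
  rw [hatSq, pmean]
  have e : ∀ τ, hat δ τ ^ 2 = (max 0 (1 - 4 * |(per δ)⁻¹ * τ|)) ^ 2 := fun τ => by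
    rw [hat, abs_mul, abs_of_pos (inv_pos.2 hP)]; ring_nf
  simp only [e]
  rw [intervalIntegral.integral_comp_mul_left (fun u => (max 0 (1 - 4 * |u|)) ^ 2)
    (inv_ne_zero hP.ne'), inv_inv, smul_eq_mul, ← mul_assoc, inv_mul_cancel₀ hP.ne', one_mul]
  congr 1 <;> field_simp

end P132.RouteA
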