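import Vale.Agent.P132.RouteA.Basic
import Vale.Agent.P132.RouteA.Period

/-!
# P132 route A: smooth elements of the bicentralizer
-/

noncomputable section

set_option linter.unusedSectionVars false

namespace P132.RouteA

open MeasureTheory Complex Filter Topology
open scoped InnerProductSpace ComplexConjugate
open Vale.Agent.P132.Tomita (gk integrable_gk smoothAt smooth avgOp_apply)

variable {H : Type*} [NormedAddCommGroup H] [InnerProductSpace ℂ H] [CompleteSpace H]
variable {S : Std H} {D : Modular S}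

/-- A smooth element of the bicentralizer, with all constants bounded by `L`. -/
structure Nice (F : Flow D) (x : H →L[ℂ] H) (L : ℝ) : Prop where
  mem : x ∈ S.B
  nonneg : 0 ≤ L
  norm_le : ‖x‖ ≤ L
  β_lip : ∀ s, ‖F.β s x - x‖ ≤ L * |s|
  σ_lip : ∀ t, ‖D.σ t x - x‖ ≤ L * |t|
  rb : RB S x L
  rb_β : ∀ s, RB S (F.β s x - x) (L * |s|)
  rb_σ : ∀ t, RB S (D.σ t x - x) (L * |t|)

theorem Nice.β {F : Flow D} {x : H →L[ℂ] H} {L : ℝ} (hB : BFacts D) (h : Nice F x L) (u : ℝ) :
    Nice F (F.β u x) L := by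
  have e1 : ∀ s, F.β s (F.β u x) - F.β u x = F.β u (F.β s x - x) := fun s => by
    rw [β_sub F hB u (F.mem s x h.mem) h.mem, ← F.add s u x h.mem, ← F.add u s x h.mem, add_comm]
  have e2 : ∀ t, D.σ t (F.β u x) - F.β u x = F.β u (D.σ t x - x) := fun t => by
    rw [β_sub F hB u (hB.σ_mem t x h.mem) h.mem, F.comm_σ u t x h.mem]
  have hs : ∀ s, F.β s x - x ∈ S.B := fun s => sub_mem_B hB (F.mem s x h.mem) h.mem
  have ht : ∀ t, D.σ t x - x ∈ S.B := fun t => sub_mem_B hB (hB.σ_mem t x h.mem) h.mem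
  refine ⟨F.mem u x h.mem, h.nonneg, (F.norm_le u x h.mem).trans h.norm_le, fun s => ?_,
    fun t => ?_, h.rb.β F hB h.mem u, fun s => ?_, fun t => ?_⟩
  · rw [e1]; exact (F.norm_le u _ (hs s)).trans (h.β_lip s)
  · rw [e2]; exact (F.norm_le u _ (ht t)).trans (h.σ_lip t)
  · rw [e1]; exact (h.rb_β s).β F hB (hs s) u
  · rw [e2]; exact (h.rb_σ t).β F hB (ht t) u

/-- A differentiable function, bounded on the real line, is Lipschitz at `0` along it. -/
theorem lip_of_differentiable {V : Type*} [NormedAddCommGroup V] [NormedSpace ℂ V] {G : ℂ → V}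
    (hG : Differentiable ℂ G) {M : ℝ} (hM : ∀ t : ℝ, ‖G t - G 0‖ ≤ M) :
    ∃ C, 0 ≤ C ∧ ∀ t : ℝ, ‖G t - G 0‖ ≤ C * |t| := by
  obtain ⟨c, hc⟩ := (hG 0).hasFDerivAt.isBigO_sub.bound
  obtain ⟨e, he, he'⟩ := Metric.eventually_nhds_iff.1 hc
  have hM0 : 0 ≤ M := (norm_nonneg _).trans (hM 0)
  refine ⟨max c 0 + M / e, by positivity, fun t => ?_⟩
  by_cases ht : |t| < e
  · have h := @he' (t : ℂ) (by simpa [dist_eq_norm] using ht)
    simp only [sub_zero, norm_real, Real.norm_eq_abs] at h
    refine h.trans (mul_le_mul_of_nonneg_right ?_ (abs_nonneg t))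
    linarith [le_max_left c 0, div_nonneg hM0 he.le]
  · refine (hM t).trans (le_trans ?_ (mul_le_mul_of_nonneg_right
      (le_add_of_nonneg_left (le_max_right c 0)) (abs_nonneg t)))
    rw [div_mul_eq_mul_div, le_div_iff₀ he]
    exact mul_le_mul_of_nonneg_left (not_lt.1 ht) hM0

/-- The flow commutes with integrals at `Ω`. -/
theorem β_integral (hB : BFacts D) (F : Flow D) (s : ℝ) {A : H →L[ℂ] H} (hA : A ∈ S.B)
    {k : ℝ → ℂ} {T : ℝ → H →L[ℂ] H} (hT : ∀ u, T u ∈ S.B)
    (hi : Integrable fun u => k u • T u S.Ω) (hi' : Integrable fun u => k u • F.β s (T u) S.Ω)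
    (e : A S.Ω = ∫ u, k u • T u S.Ω) :
    F.β s A S.Ω = ∫ u, k u • F.β s (T u) S.Ω := by
  refine eq_of_inner_KB hB (apply_mem_KB hB (F.mem s A hA))
    (integral_mem_closed (isClosed_KB hB) hi'
      fun u => (KB hB).smul_mem _ (apply_mem_KB hB (F.mem s _ (hT u)))) fun z hz => ?_
  rw [inner_β_left F hB s hA hz, e, ← inner_conj_symm, ← integral_inner hi,
    ← inner_conj_symm _ (z S.Ω), ← integral_inner hi']
  congr 1
  refine integral_congr_ae (Eventually.of_forall fun u => ?_)
  simp only [inner_smul_right]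
  congr 1
  rw [← inner_conj_symm, ← inner_β_left F hB s (hT u) hz, inner_conj_symm]

section Gauss

variable {a : ℝ}

theorem smooth_mem (hB : BFacts D) (ha : 0 < a) {w : H →L[ℂ] H} (hw : w ∈ S.B) :
    smooth (normGroup D) ha w ∈ S.B :=
  σint_mem hB (integrable_gk ha 0) hw

theorem smoothAt_sub (ha : 0 < a) (v w : H →L[ℂ] H) (z : ℂ) :
    smoothAt (normGroup D) ha (v - w) z
      = smoothAt (normGroup D) ha v z - smoothAt (normGroup D) ha w z := by
  ext u
  rw [sub_apply]
  simp only [smoothAt, avgOp_apply]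
  rw [← integral_sub ((normGroup D).integrable_smul_orbit (integrable_gk ha z) v u)
    ((normGroup D).integrable_smul_orbit (integrable_gk ha z) w u)]
  simp only [sub_apply, map_sub, smul_sub]

theorem β_smooth (hB : BFacts D) (F : Flow D) (ha : 0 < a) (s : ℝ) {w : H →L[ℂ] H}
    (hw : w ∈ S.B) :
    F.β s (smooth (normGroup D) ha w) = smooth (normGroup D) ha (F.β s w) := by
  have hmem := smooth_mem hB ha hw
  refine ext_Ω (mem_M hB (F.mem s _ hmem)) (mem_M hB (smooth_mem hB ha (F.mem s w hw))) ?_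
  have hi' := integrable_σ D (integrable_gk ha 0) (F.β s w) S.Ω
  simp only [← F.comm_σ s _ w hw] at hi'
  rw [β_integral hB F s hmem (T := fun t => D.σ t w) (fun t => hB.σ_mem t w hw)
    (integrable_σ D (integrable_gk ha 0) w S.Ω) hi' rfl]
  simp only [F.comm_σ s _ w hw]
  rfl

/-- The vector of the smoothed element, seen through the conjugation. -/
theorem smooth_Ω_eq_J (ha : 0 < a) {w : H →L[ℂ] H} (hw : w ∈ S.M) :
    smooth (normGroup D) ha w S.Ω
      = D.J (smoothAt (normGroup D) ha (star w) (-(I / 2)) S.Ω) := by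
  rw [D.J_half _ _ (Vale.Agent.P132.Tomita.differentiable_smoothAt (normGroup D) ha (star w))
    (fun z => Vale.Agent.P132.Tomita.smoothAt_mem (normGroup D) ha (star_mem hw) z)
    (fun t => Vale.Agent.P132.Tomita.smoothAt_ofReal (normGroup D) ha (star w) t),
    Vale.Agent.P132.Tomita.star_smooth, star_star]

/-- The norm of the kernel at `-i/2`. -/
def gC (a : ℝ) : ℝ := ∫ t : ℝ, ‖gk a ((t : ℂ) - -(I / 2))‖

theorem gC_nonneg (a : ℝ) : 0 ≤ gC a := integral_nonneg fun _ => norm_nonneg _

theorem rb_smooth (hB : BFacts D) (ha : 0 < a) {w : H →L[ℂ] H} (hw : w ∈ S.M) :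
    RB S (smooth (normGroup D) ha w) (gC a * ‖w‖) := by
  intro b hb
  rw [smooth_Ω_eq_J ha hw]
  refine (norm_apply_J D (mem_M hB hb) (Vale.Agent.P132.Tomita.smoothAt_mem (normGroup D) ha
    (star_mem hw) _)).trans (mul_le_mul_of_nonneg_right ?_ (norm_nonneg _))
  refine (Vale.Agent.P132.Tomita.norm_avgOp_le _ _ _).trans_eq ?_
  rw [norm_star, gC]

theorem rb_σ_smooth (hB : BFacts D) (ha : 0 < a) {w : H →L[ℂ] H} (hw : w ∈ S.M) :
    ∃ C, 0 ≤ C ∧ ∀ t : ℝ,
      RB S (D.σ t (smooth (normGroup D) ha w) - smooth (normGroup D) ha w) (C * |t|) := by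
  set g : ℂ → H →L[ℂ] H := fun z => smoothAt (normGroup D) ha (star w) (-(I / 2) + z) with hg
  have hgd : Differentiable ℂ g :=
    (Vale.Agent.P132.Tomita.differentiable_smoothAt (normGroup D) ha (star w)).comp
      ((differentiable_const _).add differentiable_id)
  have hgt : ∀ t : ℝ, g t = D.σ t (g 0) := fun t => by
    simp only [hg, add_zero]
    exact Vale.Agent.P132.Tomita.smoothAt_add _ ha _ _ t
  obtain ⟨C, hC0, hC⟩ := lip_of_differentiable hgd (M := 2 * ‖g 0‖) fun t => by
    rw [hgt]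
    exact (norm_sub_le _ _).trans (by linarith [norm_σ_le D t (g 0)])
  refine ⟨C, hC0, fun t b hb => ?_⟩
  have hg0 : ∀ z, g z ∈ S.M := fun z =>
    Vale.Agent.P132.Tomita.smoothAt_mem (normGroup D) ha (star_mem hw) _
  have e : (D.σ t (smooth (normGroup D) ha w) - smooth (normGroup D) ha w) S.Ω
      = D.J ((g t - g 0) S.Ω) := by
    rw [sub_apply, sub_apply, σ_Ω, smooth_Ω_eq_J ha hw, map_sub, hgt, σ_Ω, D.J_U]
    simp [hg]
  rw [e]
  exact (norm_apply_J D (mem_M hB hb) (sub_mem (hg0 _) (hg0 0))).trans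
    (mul_le_mul_of_nonneg_right (hC t) (norm_nonneg _))

theorem σ_lip_smooth (ha : 0 < a) (w : H →L[ℂ] H) :
    ∃ C, 0 ≤ C ∧ ∀ t : ℝ,
      ‖D.σ t (smooth (normGroup D) ha w) - smooth (normGroup D) ha w‖ ≤ C * |t| := by
  have e : ∀ t : ℝ, smoothAt (normGroup D) ha w t = D.σ t (smooth (normGroup D) ha w) :=
    fun t => Vale.Agent.P132.Tomita.smoothAt_ofReal _ ha _ t
  obtain ⟨C, hC0, hC⟩ := lip_of_differentiable
    (Vale.Agent.P132.Tomita.differentiable_smoothAt (normGroup D) ha w)
    (M := 2 * ‖smooth (normGroup D) ha w‖) fun t => by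
      rw [e]
      exact (norm_sub_le _ _).trans
        (by linarith [norm_σ_le D t (smooth (normGroup D) ha w),
          show ‖smoothAt (normGroup D) ha w 0‖ = ‖smooth (normGroup D) ha w‖ from rfl])
  refine ⟨C, hC0, fun t => ?_⟩
  rw [← e]
  exact hC t

/-- Gaussian smoothing of a flow Lipschitz element is nice. -/
theorem nice_smooth (hB : BFacts D) (F : Flow D) (ha : 0 < a) {w : H →L[ℂ] H} (hw : w ∈ S.B)
    {L : ℝ} (hL : 0 ≤ L) (hlip : ∀ s, ‖F.β s w - w‖ ≤ L * |s|) :
    ∃ L', Nice F (smooth (normGroup D) ha w) L' := by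
  obtain ⟨C1, hC1, hσ⟩ := σ_lip_smooth (D := D) ha w
  obtain ⟨C2, hC2, hrb⟩ := rb_σ_smooth hB ha (mem_M hB hw)
  have hg := gC_nonneg a
  have h0 : 0 ≤ gC a * ‖w‖ := by positivity
  have h1 : 0 ≤ gC a * L := by positivity
  have h2 := norm_nonneg w
  have e : ∀ s, F.β s (smooth (normGroup D) ha w) - smooth (normGroup D) ha w
      = smooth (normGroup D) ha (F.β s w - w) := fun s => by
    rw [β_smooth hB F ha s hw]
    exact (smoothAt_sub ha _ _ _).symm
  refine ⟨‖w‖ + L + C1 + C2 + gC a * ‖w‖ + gC a * L, smooth_mem hB ha hw, by positivity,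
    (Vale.Agent.P132.Tomita.norm_smooth_le _ ha w).trans (by linarith), fun s => ?_, fun t => ?_,
    fun b hb => ?_, fun s b hb => ?_, fun t b hb => ?_⟩
  · rw [e]
    exact (Vale.Agent.P132.Tomita.norm_smooth_le _ ha _).trans
      ((hlip s).trans (by gcongr; linarith))
  · exact (hσ t).trans (by gcongr; linarith)
  · exact (rb_smooth hB ha (mem_M hB hw) b hb).trans (by gcongr; linarith)
  · rw [e]
    refine (rb_smooth hB ha (mem_M hB (sub_mem_B hB (F.mem s w hw) hw)) b hb).trans ?_
    calc gC a * ‖F.β s w - w‖ * ‖b S.Ω‖ ≤ gC a * (L * |s|) * ‖b S.Ω‖ := by gcongr; exact hlip s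
      _ ≤ _ := by rw [← mul_assoc]; gcongr; linarith
  · exact (hrb t b hb).trans (by gcongr; linarith)

end Gauss

/-- Averaging along the flow gives a Lipschitz element close to the given one. -/
theorem exists_β_lip (hB : BFacts D) (F : Flow D) {x : H →L[ℂ] H} (hx : x ∈ S.B) {ε : ℝ}
    (hε : 0 < ε) :
    ∃ w ∈ S.B, ∃ L, 0 ≤ L ∧ (∀ s, ‖F.β s w - w‖ ≤ L * |s|) ∧ ‖(w - x) S.Ω‖ ≤ ε := by
  obtain ⟨e, he, he'⟩ := Metric.continuous_iff.1 (F.cont x hx) 0 ε hε
  set δ : ℝ := 2 * Real.pi / e with hδdef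
  have hδ : 0 < δ := by positivity
  have hP : per δ = e := by rw [per, hδdef]; field_simp
  have hsupp : ∀ s, hat δ s ≠ 0 → |s| < e / 4 := fun s hs =>
    lt_of_not_ge fun h => hs (hat_eq_zero hδ (by rw [hP]; exact h))
  have hcs : HasCompactSupport (hat δ) :=
    HasCompactSupport.intro (isCompact_Icc (a := -(e / 4)) (b := e / 4)) fun s hs => by
      by_contra h
      exact hs (abs_le.1 (hsupp s h).le)
  have hint : Integrable (hat δ) := (continuous_hat δ).integrable_of_hasCompactSupport hcs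
  set Z := ∫ s, hat δ s with hZdef
  have hZ : 0 < Z :=
    integral_pos_of_integrable_nonneg_nonzero (x := 0) (continuous_hat δ) hint (hat_nonneg δ)
      (by simp [hat])
  set k : ℝ → ℂ := fun s => ((Z⁻¹ * hat δ s : ℝ) : ℂ) with hk
  have hki : Integrable k := (hint.const_mul _).ofReal
  have hk1 : ∫ s, k s = 1 := by
    rw [hk, integral_complex_ofReal, integral_const_mul, ← hZdef, inv_mul_cancel₀ hZ.ne', ofReal_one]
  let T : Core.OpField ℝ H :=
    ⟨fun s => F.β s x, ‖x‖, fun s => F.norm_le s x hx, continuous_β_apply F hB hx⟩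
  have hsm : ∀ (f : ℝ → ℂ) (hf : Integrable f), Core.smear f hf T ∈ S.B := by
    intro f hf
    refine mem_of_KB hB ?_ ?_
    · suffices Core.smear f hf T ∈ S.M.commutant.commutant by
        rwa [VonNeumannAlgebra.commutant_commutant] at this
      rw [VonNeumannAlgebra.mem_commutant_iff]
      intro y hy
      ext v
      simp only [mul_apply_eq_comp]
      exact Core.smear_commute f hf T y (fun u z => by
        simpa only [mul_apply_eq_comp] using congrArg (fun A : H →L[ℂ] H => A z)
          (VonNeumannAlgebra.mem_commutant_iff.1 hy _ (mem_M hB (F.mem u x hx))).symm) v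
    · rw [Core.smear_apply]
      exact integral_mem_closed (isClosed_KB hB) (Core.integrable_smear hf T _)
        fun u => (KB hB).smul_mem _ (apply_mem_KB hB (F.mem u x hx))
  refine ⟨Core.smear k hki T, hsm k hki, 4 * Z⁻¹ * ‖x‖, by positivity, fun u => ?_, ?_⟩
  · have hku : Integrable fun s => k (s - u) := hki.comp_sub_right u
    have e1 : F.β u (Core.smear k hki T) = Core.smear (fun s => k (s - u)) hku T := by
      refine ext_Ω (mem_M hB (F.mem u _ (hsm k hki))) (mem_M hB (hsm _ hku)) ?_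
      have hi' : Integrable fun s => k s • F.β u (F.β s x) S.Ω := by
        have h := (Core.integrable_smear hku T S.Ω).comp_add_left u
        simpa [T, ← F.add u _ x hx] using h
      rw [β_integral hB F u (hsm k hki) (T := fun s => F.β s x) (fun s => F.mem s x hx)
        (Core.integrable_smear hki T S.Ω) hi' rfl, Core.smear_apply,
        ← integral_add_left_eq_self (fun s => k (s - u) • T s S.Ω) u]
      simp [T, ← F.add u _ x hx]
    rw [e1]
    refine ContinuousLinearMap.opNorm_le_bound _ (by positivity) fun v => ?_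
    rw [sub_apply, Core.smear_apply, Core.smear_apply, ← integral_sub
      (Core.integrable_smear hku T v) (Core.integrable_smear hki T v)]
    set A : ℝ → ℝ := Set.indicator (Set.Icc (-(e / 4)) (e / 4)) (fun _ => 1) with hA
    have hAi : Integrable A := by
      rw [hA]; exact (integrableOn_const (C := (1 : ℝ)) (hs := by simp)).integrable_indicator measurableSet_Icc
    have hA0 : ∀ s, 0 ≤ A s := fun s => Set.indicator_nonneg (fun _ _ => zero_le_one) s
    have hA1 : ∫ s, A s = e / 2 := by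
      rw [hA, integral_indicator measurableSet_Icc, setIntegral_const, Measure.real,
        Real.volume_Icc, ENNReal.toReal_ofReal (by linarith)]
      simp; ring
    refine (norm_integral_le_of_norm_le
      (g := fun s => (4 / per δ * |u| * Z⁻¹ * ‖x‖ * ‖v‖) * (A (s - u) + A s))
      (((hAi.comp_sub_right u).add hAi).const_mul _) (Eventually.of_forall fun s => ?_)).trans_eq ?_
    · rw [← sub_smul, norm_smul]
      have h1 : ‖k (s - u) - k s‖ ≤ Z⁻¹ * (4 / per δ * |u|) * (A (s - u) + A s) := by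
        rw [hk]
        simp only [← ofReal_sub, norm_real, Real.norm_eq_abs, ← mul_sub, abs_mul,
          abs_of_pos (inv_pos.2 hZ), mul_assoc]
        refine mul_le_mul_of_nonneg_left ?_ (by positivity)
        rw [← mul_assoc]
        by_cases h : hat δ (s - u) = 0 ∧ hat δ s = 0
        · rw [h.1, h.2]
          have := hA0 (s - u); have := hA0 s; have := per_pos hδ
          simp; positivity
        · refine le_trans ?_ (le_mul_of_one_le_right (by have := per_pos hδ; positivity) ?_)
          · refine (hat_lip hδ (s - u) s).trans_eq ?_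
            rw [show s - u - s = -u by ring, abs_neg]
          · rw [not_and_or] at h
            rcases h with h | h
            · have : A (s - u) = 1 := Set.indicator_of_mem (show _ ∈ Set.Icc (-(e / 4)) (e / 4) from abs_le.1 (hsupp _ h).le) _
              linarith [hA0 s]
            · have : A s = 1 := Set.indicator_of_mem (show _ ∈ Set.Icc (-(e / 4)) (e / 4) from abs_le.1 (hsupp _ h).le) _
              linarith [hA0 (s - u)]
      calc ‖k (s - u) - k s‖ * ‖T s v‖
          ≤ (Z⁻¹ * (4 / per δ * |u|) * (A (s - u) + A s)) * (‖x‖ * ‖v‖) := by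
            refine mul_le_mul h1 (T.apply_norm_le s v) (norm_nonneg _) ?_
            exact (norm_nonneg _).trans h1
        _ = _ := by ring
    · rw [integral_const_mul, integral_add (hAi.comp_sub_right u) hAi,
        integral_sub_right_eq_self A u, hA1, hP]
      field_simp
      ring
  · rw [sub_apply, Core.smear_apply]
    have e2 : x S.Ω = ∫ s, k s • x S.Ω := by rw [integral_smul_const, hk1, one_smul]
    rw [e2, ← integral_sub (Core.integrable_smear hki T S.Ω) (hki.smul_const _)]
    refine (norm_integral_le_of_norm_le (g := fun s => Z⁻¹ * hat δ s * ε) ((hint.const_mul _).mul_const _)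
      (Eventually.of_forall fun s => ?_)).trans_eq ?_
    · rw [← smul_sub, norm_smul, hk, norm_real, Real.norm_of_nonneg
        (mul_nonneg (inv_nonneg.2 hZ.le) (hat_nonneg δ s))]
      by_cases h : hat δ s = 0
      · simp [h]
      · refine mul_le_mul_of_nonneg_left ?_ (mul_nonneg (inv_nonneg.2 hZ.le) (hat_nonneg δ s))
        have := he' s (by rw [Real.dist_eq, sub_zero]; linarith [hsupp s h])
        rw [F.zero x hx, dist_eq_norm] at this
        exact this.le
    · rw [integral_mul_const, integral_const_mul, ← hZdef, inv_mul_cancel₀ hZ.ne', one_mul]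

/-- Nice elements are dense. -/
theorem exists_nice (hB : BFacts D) (F : Flow D) {x : H →L[ℂ] H} (hx : x ∈ S.B) {ε : ℝ}
    (hε : 0 < ε) : ∃ z L, Nice F z L ∧ ‖(z - x) S.Ω‖ ≤ ε := by
  obtain ⟨w, hw, L, hL, hlip, hwx⟩ := exists_β_lip hB F hx (half_pos hε)
  have hb : ∀ n : ℕ, (0 : ℝ) < n + 1 := fun n => by positivity
  have hlim : Tendsto (fun n : ℕ => (n : ℝ) + 1) atTop atTop :=
    tendsto_natCast_atTop_atTop.atTop_add tendsto_const_nhds
  obtain ⟨n, hn⟩ := (Metric.tendsto_nhds.1
    (Vale.Agent.P132.Tomita.tendsto_smooth (normGroup D) hb hlim w S.Ω) _ (half_pos hε)).exists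
  obtain ⟨L', hL'⟩ := nice_smooth hB F (hb n) hw hL hlip
  refine ⟨_, L', hL', ?_⟩
  rw [dist_eq_norm] at hn
  rw [sub_apply] at hwx ⊢
  calc ‖smooth (normGroup D) (hb n) w S.Ω - x S.Ω‖
      ≤ ‖smooth (normGroup D) (hb n) w S.Ω - w S.Ω‖ + ‖w S.Ω - x S.Ω‖ :=
        norm_sub_le_norm_sub_add_norm_sub _ _ _
    _ ≤ ε := by linarith

end P132.RouteA
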