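import Vale.Agent.P132.RouteA.Matrix
import Vale.Agent.P132.RouteA.Smooth

/-!
# P132 route A: the two commutation estimates at a point of the joint spectrum
-/

noncomputable section

set_option linter.unusedSectionVars false

namespace P132.RouteA

open MeasureTheory Complex Filter Topology
open scoped InnerProductSpace ComplexConjugate

variable {H : Type*} [NormedAddCommGroup H] [InnerProductSpace ℂ H] [CompleteSpace H]
variable {S : Std H} {D : Modular S}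

/-- An approximate joint eigen element, with error `η`. -/
structure Narrow (F : Flow D) (r p η : ℝ) (a : H →L[ℂ] H) : Prop where
  mem : a ∈ S.B
  u : ∀ t : ℝ, ‖D.U t (a S.Ω) - Complex.exp (I * (r * t : ℝ)) • a S.Ω‖ ≤ η * |t| * ‖a S.Ω‖
  b : ∀ s : ℝ, ‖F.β s a S.Ω - Complex.exp (I * (p * s : ℝ)) • a S.Ω‖ ≤ η * |s| * ‖a S.Ω‖

theorem coef_sub {δ : ℝ} (m : ℤ) {G G' : ℝ → H} (hG : Continuous G) (hG' : Continuous G') :
    coef δ m (fun τ => G τ - G' τ) = coef δ m G - coef δ m G' := by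
  simp only [coef, smul_sub]
  rw [intervalIntegral.integral_sub, smul_sub] <;>
    exact Continuous.intervalIntegrable (by fun_prop) _ _

theorem coef_map {δ : ℝ} (m : ℤ) {G : ℝ → H} (hG : Continuous G) (A : H →L[ℂ] H) :
    coef δ m (fun τ => A (G τ)) = A (coef δ m G) := by
  simp only [coef, map_smul]
  rw [← A.intervalIntegral_comp_comm
    (Continuous.intervalIntegrable (μ := volume) (by fun_prop : Continuous fun τ => ch δ m τ • G τ)
      _ _)]
  simp only [map_smul]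

/-- Bessel for the vector function of a matrix, with a pointwise bound. -/
theorem bessel_hfun {δ : ℝ} (hδ : 0 < δ) (c : H →L[ℂ] H) (v : H) {K : ℝ}
    (hK : ∀ τ, ‖D.σ τ c v‖ ≤ K) (s : Finset ℤ) :
    ∑ m ∈ s, ‖ek D hδ c m v‖ ^ 2 ≤ K ^ 2 := by
  simp only [ek_apply]
  refine (bessel hδ (continuous_hfun D δ c v) s).trans
    (pmean_le_const hδ (by fun_prop) fun τ => ?_)
  refine pow_le_pow_left₀ (norm_nonneg _) ?_ 2
  rw [hfun, norm_smul, norm_real, Real.norm_of_nonneg (hat_nonneg _ _)]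
  exact (mul_le_of_le_one_left (norm_nonneg _) (hat_le_one hδ τ)).trans (hK τ)

theorem bessel_rb (hB : BFacts D) {δ : ℝ} (hδ : 0 < δ) {a z : H →L[ℂ] H} (ha : a ∈ S.B) {c : ℝ}
    (hz : RB S z c) (s : Finset ℤ) :
    ∑ m ∈ s, ‖ek D hδ a m (z S.Ω)‖ ^ 2 ≤ (c * ‖a S.Ω‖) ^ 2 :=
  bessel_hfun hδ a _ (fun τ => (hz _ (hB.σ_mem τ a ha)).trans_eq (by rw [norm_σ_Ω])) s

theorem rb_one (S : Std H) : RB S (1 : H →L[ℂ] H) 1 := fun b _ => by simp

/-- Concentration of the coefficients made from a narrow element. -/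
theorem conc_narrow (hB : BFacts D) {F : Flow D} {r p η : ℝ} {a z : H →L[ℂ] H}
    (ha : Narrow F r p η a) {δ : ℝ} (hδ : 0 < δ) {c : ℝ} (hc : 0 ≤ c) (hz : RB S z c) {b : ℝ}
    (hb : 0 < b) (hbP : 2 / b ≤ per δ / 4) (s : Finset ℤ)
    (hsb : ∀ m ∈ s, b ≤ |(m : ℝ) * δ + r|) :
    ∑ m ∈ s, ‖ek D hδ a m (z S.Ω)‖ ^ 2
      ≤ 2 * (c * ((η + 4 / per δ) * ‖a S.Ω‖)) ^ 2 / b ^ 2 := by
  simp only [ek_apply]
  refine concentrate hδ (continuous_hfun D δ a _) (supp_hfun D hδ a _) hb hbP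
    (fun θ hθ τ => ?_) s hsb
  set d := (hat δ (τ + θ) : ℂ) • D.σ θ a
    - (Complex.exp (((r * θ : ℝ) : ℂ) * I) * (hat δ τ : ℂ)) • a with hd
  have hdB : d ∈ S.B :=
    sub_mem_B hB (hB.smul _ _ (hB.σ_mem θ a ha.mem)) (hB.smul _ _ ha.mem)
  have e : hfun D δ a (z S.Ω) (τ + θ)
      - Complex.exp (((r * θ : ℝ) : ℂ) * I) • hfun D δ a (z S.Ω) τ = D.σ τ d (z S.Ω) := by
    simp only [hfun, hd, σ_sub, σ_smul, σ_add, sub_apply, smul_apply, smul_smul]
  rw [e]
  refine (hz _ (hB.σ_mem τ d hdB)).trans ?_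
  rw [mul_assoc c]
  refine mul_le_mul_of_nonneg_left ?_ hc
  rw [norm_σ_Ω]
  have e2 : d S.Ω = (hat δ τ : ℂ) •
        (D.U θ (a S.Ω) - Complex.exp (((r * θ : ℝ) : ℂ) * I) • a S.Ω)
      + ((hat δ (τ + θ) - hat δ τ : ℝ) : ℂ) • D.U θ (a S.Ω) := by
    simp only [hd, sub_apply, smul_apply, σ_Ω, ofReal_sub, sub_smul, smul_sub, smul_smul]
    rw [mul_comm (hat δ τ : ℂ)]
    abel
  rw [e2]
  refine (norm_add_le _ _).trans ?_
  rw [norm_smul, norm_smul, norm_U, norm_real, norm_real, Real.norm_of_nonneg (hat_nonneg _ _),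
    Real.norm_eq_abs, add_mul, add_mul]
  refine add_le_add ((mul_le_of_le_one_left (norm_nonneg _) (hat_le_one hδ τ)).trans ?_) ?_
  · have := ha.u θ
    rw [abs_of_nonneg hθ.1, mul_comm I] at this
    exact this.trans_eq (by ring)
  · refine (mul_le_mul_of_nonneg_right (hat_lip hδ _ _) (norm_nonneg _)).trans_eq ?_
    rw [add_sub_cancel_left, abs_of_nonneg hθ.1]
    ring

theorem norm_add3_sq {E : Type*} [SeminormedAddCommGroup E] (u v w : E) :
    ‖u + v + w‖ ^ 2 ≤ 3 * ‖u‖ ^ 2 + 3 * ‖v‖ ^ 2 + 3 * ‖w‖ ^ 2 := by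
  have h := norm_add₃_le (a := u) (b := v) (c := w)
  have h0 := norm_nonneg (u + v + w)
  nlinarith [sq_nonneg (‖u‖ - ‖v‖), sq_nonneg (‖u‖ - ‖w‖), sq_nonneg (‖v‖ - ‖w‖)]

theorem norm_sub_sq_le {E : Type*} [SeminormedAddCommGroup E] (u v : E) :
    ‖u - v‖ ^ 2 ≤ 2 * ‖u‖ ^ 2 + 2 * ‖v‖ ^ 2 := by
  nlinarith [norm_sub_le u v, norm_nonneg (u - v), sq_nonneg (‖u‖ - ‖v‖)]

theorem mem_outer {R δ : ℝ} (hδ : 0 < δ) {k : ℤ} (h : |(k : ℝ) * δ| ≤ R) : k ∈ outer R δ := by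
  rw [outer, Finset.mem_Icc, ← abs_le]
  have h1 : |(k : ℝ)| ≤ (⌈R / δ⌉₊ : ℝ) := by
    refine le_trans ?_ (Nat.le_ceil _)
    rw [le_div_iff₀ hδ]
    rwa [abs_mul, abs_of_pos hδ] at h
  exact_mod_cast h1

theorem abs_le_of_mem_inner {ε δ : ℝ} (hε : 0 ≤ ε) (hδ : 0 < δ) {l : ℤ} (h : l ∈ inner' ε δ) :
    |(l : ℝ) * δ| ≤ ε := by
  rw [inner', Finset.mem_Icc, ← abs_le] at h
  rw [abs_mul, abs_of_pos hδ, ← le_div_iff₀ hδ]
  exact le_trans (by exact_mod_cast h) (Nat.floor_le (by positivity))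

theorem abs_le_of_mem_outer {R δ : ℝ} (hR : 0 ≤ R) (hδ : 0 < δ) {k : ℤ} (h : k ∈ outer R δ) :
    |(k : ℝ) * δ| ≤ R + δ := by
  rw [outer, Finset.mem_Icc, ← abs_le] at h
  have h1 : |(k : ℝ)| ≤ (⌈R / δ⌉₊ : ℝ) := by exact_mod_cast h
  have h2 := Nat.ceil_lt_add_one (show 0 ≤ R / δ by positivity)
  rw [div_add_one hδ.ne', lt_div_iff₀ hδ] at h2
  rw [abs_mul, abs_of_pos hδ]
  nlinarith

theorem inner_card_pos (ε δ : ℝ) : 0 < (inner' ε δ).card :=
  Finset.card_pos.2 ⟨0, by simp [inner']⟩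

theorem outer_card_le {ε δ : ℝ} (hε : 0 < ε) (hε1 : ε ≤ 1) (hδ : 0 < δ) (hδε : δ ≤ ε) :
    ((outer (1 / ε) δ).card : ℝ) ≤ 5 / ε ^ 2 * (inner' ε δ).card := by
  rw [outer, inner', Int.card_Icc, Int.card_Icc]
  set n := ⌈1 / ε / δ⌉₊
  set l := ⌊ε / δ⌋₊
  have e : ∀ j : ℕ, ((j : ℤ) + 1 - -(j : ℤ)).toNat = 2 * j + 1 := fun j => by omega
  rw [e, e]
  push_cast
  have h1 := Nat.ceil_lt_add_one (show 0 ≤ 1 / ε / δ by positivity)
  have h2 := Nat.lt_floor_add_one (ε / δ)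
  have h3 : 1 ≤ 1 / (ε * δ) := by
    rw [le_div_iff₀ (by positivity)]; nlinarith
  have h4 : 5 / ε ^ 2 * (ε / δ) = 5 * (1 / (ε * δ)) := by field_simp
  have h5 : 1 / ε / δ = 1 / (ε * δ) := by rw [div_div]
  have h6 : 5 / ε ^ 2 * (ε / δ) ≤ 5 / ε ^ 2 * (2 * (l : ℝ) + 1) := by
    gcongr; linarith [Nat.cast_nonneg (α := ℝ) l]
  linarith

/-- Parseval, splitting the coefficients by a predicate. -/
theorem pmean_split {δ : ℝ} (hδ : 0 < δ) {G : ℝ → H} (hG : Continuous G) (P : ℤ → Prop)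
    {C1 C2 : ℝ} (h1 : ∀ s : Finset ℤ, (∀ m ∈ s, P m) → ∑ m ∈ s, ‖coef δ m G‖ ^ 2 ≤ C1)
    (h2 : ∀ s : Finset ℤ, (∀ m ∈ s, ¬ P m) → ∑ m ∈ s, ‖coef δ m G‖ ^ 2 ≤ C2) :
    pmean δ (fun τ => ‖G τ‖ ^ 2) ≤ C1 + C2 := by
  classical
  refine pmean_sq_le hδ hG fun s => ?_
  rw [← Finset.sum_filter_add_sum_filter_not s P]
  exact add_le_add (h1 _ fun m hm => (Finset.mem_filter.1 hm).2)
    (h2 _ fun m hm => (Finset.mem_filter.1 hm).2)

/-- Estimate I. -/
theorem stepI (hB : BFacts D) (F : Flow D) {r p κ : ℝ} (hκ : 0 < κ) (hκ1 : κ ≤ 1)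
    (hr : |r| + 2 ≤ 1 / κ) {x a : H →L[ℂ] H} {L : ℝ} (hx : Nice F x L)
    (ha : Narrow F r p (κ ^ 3) a) (hN : a S.Ω ≠ 0) :
    ∀ᶠ δ in 𝓝[>] (0 : ℝ),
      pmean δ (fun τ =>
          hat δ τ ^ 2 * ‖(F.β (-r) x * D.σ τ a - D.σ τ a * x) S.Ω‖ ^ 2)
        ≤ (3 + 47 * L ^ 2) * κ ^ 2 * ‖a S.Ω‖ ^ 2 := by
  set N := ‖a S.Ω‖ with hNdef
  have hN0 : 0 < N := norm_pos_iff.2 hN
  have hR : κ ≤ 1 / κ := hκ1.trans (by rw [le_div_iff₀ hκ]; linarith)
  have hkey := key_avg hB F hx.mem ha.mem (R := 1 / κ) hκ hR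
    (γ := κ ^ 2 * N ^ 2) (by positivity)
  have hP0 : Tendsto (fun δ => 4 / per δ) (𝓝 0) (𝓝 0) := by
    have : ∀ δ : ℝ, 4 / per δ = 4 / (2 * Real.pi) * δ := fun δ => by
      rw [per, div_div_eq_mul_div]; ring
    simp only [this]
    simpa using (tendsto_id (α := ℝ) (x := 𝓝 0)).const_mul (4 / (2 * Real.pi))
  filter_upwards [hkey, self_mem_nhdsWithin,
    (hP0.eventually (eventually_le_nhds (show 0 < κ ^ 3 by positivity))).filter_mono
      nhdsWithin_le_nhds,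
    (hP0.eventually (eventually_le_nhds (show 0 < κ / 2 by positivity))).filter_mono
      nhdsWithin_le_nhds,
    (eventually_le_nhds hκ).filter_mono nhdsWithin_le_nhds] with δ hkey hδ' hP3 hP1 hδκ
  have hδ : 0 < δ := hδ'
  have hP := per_pos hδ
  have hbP : 2 / κ ≤ per δ / 4 := by
    rw [div_le_div_iff₀ hP (by norm_num)] at hP1
    rw [div_le_div_iff₀ hκ (by norm_num)]
    linarith
  specialize hkey hδ
  set y := F.β (-r) x with hy
  set G := fun τ => y (hfun D δ a S.Ω τ) - hfun D δ a (x S.Ω) τ with hG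
  have hGc : Continuous G := by fun_prop
  have e : ∀ τ, hat δ τ ^ 2 * ‖(y * D.σ τ a - D.σ τ a * x) S.Ω‖ ^ 2 = ‖G τ‖ ^ 2 := fun τ => by
    simp only [hG, hfun, map_smul, ← smul_sub, norm_smul, mul_pow, norm_real,
      Real.norm_of_nonneg (hat_nonneg δ τ), sub_apply, mul_apply_eq_comp]
  simp only [e]
  have hcoef : ∀ m, coef δ m G = y (ek D hδ a m S.Ω) - ek D hδ a m (x S.Ω) := fun m => by
    rw [coef_sub m (by fun_prop) (by fun_prop), coef_map m (by fun_prop), ← ek_apply _ hδ,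
      ← ek_apply _ hδ]
  have hbess1 : ∀ s, ∑ m ∈ s, ‖ek D hδ a m S.Ω‖ ^ 2 ≤ N ^ 2 := fun s => by
    simpa using bessel_rb hB hδ ha.mem (rb_one S) s
  have hgood : ∀ s : Finset ℤ, (∀ m ∈ s, |(m : ℝ) * δ + r| < κ) →
      ∑ m ∈ s, ‖coef δ m G‖ ^ 2 ≤ (3 + 15 * L ^ 2) * κ ^ 2 * N ^ 2 := by
    intro s hs
    set A := fun k l : ℤ =>
      ‖(F.β (k * δ) x * ek D hδ a (k - l) - ek D hδ a (k - l) * F.β (l * δ) x) S.Ω‖ ^ 2 with hA
    have hl : ∀ l ∈ inner' κ δ, ∑ m ∈ s, ‖coef δ m G‖ ^ 2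
        ≤ 3 * (∑ k ∈ outer (1 / κ) δ, A k l) + 15 * L ^ 2 * κ ^ 2 * N ^ 2 := by
      intro l hl
      have hl' := abs_le_of_mem_inner hκ.le hδ hl
      have hm : ∀ m ∈ s, ‖coef δ m G‖ ^ 2 ≤ 3 * A (m + l) l
          + 3 * ((2 * (L * κ)) ^ 2 * ‖ek D hδ a m S.Ω‖ ^ 2)
          + 3 * ‖ek D hδ a m ((F.β (l * δ) x - x) S.Ω)‖ ^ 2 := by
        intro m hm
        have hd : ‖(y - F.β ((m + l : ℤ) * δ) x) (ek D hδ a m S.Ω)‖
            ≤ 2 * (L * κ) * ‖ek D hδ a m S.Ω‖ := by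
          refine ContinuousLinearMap.le_of_opNorm_le _ ?_ _
          have e1 : y - F.β ((m + l : ℤ) * δ) x
              = -(F.β (((m + l : ℤ) * δ) + r) y - y) := by
            rw [hy, ← F.add _ _ x hx.mem, add_neg_cancel_right, neg_sub]
          rw [e1, norm_neg]
          refine ((hx.β hB (-r)).β_lip _).trans ?_
          rw [show 2 * (L * κ) = L * (2 * κ) by ring]
          refine mul_le_mul_of_nonneg_left ?_ hx.nonneg
          push_cast
          rw [show ((m : ℝ) + l) * δ + r = ((m : ℝ) * δ + r) + (l : ℝ) * δ by ring]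
          refine (abs_add_le _ _).trans ?_
          linarith [hs m hm]
        rw [hcoef, show y (ek D hδ a m S.Ω) - ek D hδ a m (x S.Ω)
            = (F.β ((m + l : ℤ) * δ) x * ek D hδ a m - ek D hδ a m * F.β (l * δ) x) S.Ω
              + (y - F.β ((m + l : ℤ) * δ) x) (ek D hδ a m S.Ω)
              + ek D hδ a m ((F.β (l * δ) x - x) S.Ω) by
          simp only [sub_apply, mul_apply_eq_comp, map_sub]; abel]
        refine (norm_add3_sq _ _ _).trans ?_
        rw [hA]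
        simp only [add_sub_cancel_right]
        gcongr
        rw [← mul_pow]
        gcongr
      refine (Finset.sum_le_sum hm).trans ?_
      rw [Finset.sum_add_distrib, Finset.sum_add_distrib, ← Finset.mul_sum, ← Finset.mul_sum,
        ← Finset.mul_sum, ← Finset.mul_sum]
      have h1 : ∑ m ∈ s, A (m + l) l ≤ ∑ k ∈ outer (1 / κ) δ, A k l := by
        refine le_trans (le_of_eq (Finset.sum_map s (addRightEmbedding l) (fun k => A k l)).symm) ?_
        refine Finset.sum_le_sum_of_subset_of_nonneg (fun k hk => ?_) fun k _ _ => sq_nonneg _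
        obtain ⟨m, hm, rfl⟩ := Finset.mem_map.1 hk
        refine mem_outer hδ ?_
        simp only [addRightEmbedding_apply]
        push_cast
        have := hs m hm
        rw [abs_lt] at this
        rw [abs_le] at hl' ⊢
        constructor <;> nlinarith [le_abs_self r, neg_abs_le r, hl'.1, hl'.2]
      have h2 := hbess1 s
      have h3 : ∑ m ∈ s, ‖ek D hδ a m ((F.β (l * δ) x - x) S.Ω)‖ ^ 2 ≤ (L * κ * N) ^ 2 := by
        refine (bessel_rb hB hδ ha.mem (hx.rb_β _) s).trans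
          (pow_le_pow_left₀ (mul_nonneg (mul_nonneg hx.nonneg (abs_nonneg _)) hN0.le) ?_ 2)
        have := hx.nonneg
        gcongr
      have h4 := mul_le_mul_of_nonneg_left h2 (sq_nonneg (2 * (L * κ)))
      linarith
    have hsum := Finset.sum_le_sum hl
    rw [Finset.sum_const, nsmul_eq_mul, Finset.sum_add_distrib, ← Finset.mul_sum,
      Finset.sum_const, nsmul_eq_mul] at hsum
    have hc : (0 : ℝ) < (inner' κ δ).card := by exact_mod_cast inner_card_pos κ δ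
    refine le_of_mul_le_mul_left (hsum.trans ?_) hc
    linarith [show ∑ l ∈ inner' κ δ, ∑ k ∈ outer (1 / κ) δ, A k l
      ≤ κ ^ 2 * N ^ 2 * (inner' κ δ).card from hkey]
  have hbad : ∀ s : Finset ℤ, (∀ m ∈ s, ¬|(m : ℝ) * δ + r| < κ) →
      ∑ m ∈ s, ‖coef δ m G‖ ^ 2 ≤ 32 * L ^ 2 * κ ^ 2 * N ^ 2 := by
    intro s hs
    have hs' : ∀ m ∈ s, κ ≤ |(m : ℝ) * δ + r| := fun m hm => not_lt.1 (hs m hm)
    have h1 := conc_narrow hB ha hδ zero_le_one (rb_one S) hκ hbP s hs'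
    have h2 := conc_narrow hB ha hδ hx.nonneg hx.rb hκ hbP s hs'
    simp only [one_mul, one_apply_eq_self] at h1
    have hK : (κ ^ 3 + 4 / per δ) * N ≤ 2 * κ ^ 3 * N := by gcongr; linarith
    have hK0 : 0 ≤ (κ ^ 3 + 4 / per δ) * N := by positivity
    have hm : ∀ m ∈ s, ‖coef δ m G‖ ^ 2
        ≤ 2 * (L ^ 2 * ‖ek D hδ a m S.Ω‖ ^ 2) + 2 * ‖ek D hδ a m (x S.Ω)‖ ^ 2 := by
      intro m _
      rw [hcoef]
      refine (norm_sub_sq_le _ _).trans ?_
      gcongr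
      rw [← mul_pow]
      gcongr
      exact y.le_of_opNorm_le (hx.β hB (-r)).norm_le _
    refine (Finset.sum_le_sum hm).trans ?_
    rw [Finset.sum_add_distrib, ← Finset.mul_sum, ← Finset.mul_sum, ← Finset.mul_sum]
    have h5 : ((κ ^ 3 + 4 / per δ) * N) ^ 2 / κ ^ 2 ≤ 4 * κ ^ 2 * N ^ 2 := by
      rw [div_le_iff₀ (by positivity)]
      refine (pow_le_pow_left₀ hK0 hK 2).trans ?_
      nlinarith [mul_nonneg (mul_nonneg (sq_nonneg κ) (sq_nonneg κ))
        (mul_nonneg (sq_nonneg N) (sub_nonneg.2 (pow_le_one₀ hκ.le hκ1 (n := 2))))]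
    have h6 := mul_le_mul_of_nonneg_left h5 (sq_nonneg L)
    have h7 : ∑ m ∈ s, ‖ek D hδ a m S.Ω‖ ^ 2 ≤ 8 * κ ^ 2 * N ^ 2 := by
      rw [mul_div_assoc] at h1
      linarith
    have h8 : ∑ m ∈ s, ‖ek D hδ a m (x S.Ω)‖ ^ 2 ≤ 8 * (L ^ 2 * κ ^ 2 * N ^ 2) := by
      rw [mul_div_assoc, mul_pow, mul_div_assoc (L ^ 2)] at h2
      linarith
    have h9 := mul_le_mul_of_nonneg_left h7 (sq_nonneg L)
    linarith
  refine (pmean_split hδ hGc _ hgood hbad).trans_eq ?_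
  ring

/-- The translated coefficient. -/
theorem coef_sub_right {δ : ℝ} (hδ : 0 < δ) {G : ℝ → H} (hs : Supp δ G) (m : ℤ) {q : ℝ}
    (hq : |q| ≤ per δ / 4) : coef δ m (fun τ => G (τ - q)) = ch δ m q • coef δ m G := by
  simpa [← sub_eq_add_neg] using coef_translate hδ hs m (θ := -q) (by rwa [abs_neg])

/-- Estimate II. -/
theorem stepII (hB : BFacts D) (F : Flow D) {r p κ : ℝ} (hκ : 0 < κ) (hκ2 : κ ≤ 1 / 2)
    {x a : H →L[ℂ] H} {L : ℝ} (hx : Nice F x L) (ha : Narrow F r p (κ ^ 3) a)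
    (hN : a S.Ω ≠ 0) :
    ∀ᶠ δ in 𝓝[>] (0 : ℝ),
      pmean δ (fun τ =>
          hat δ τ ^ 2 * ‖(D.σ τ a * D.σ (-p) x - x * D.σ τ a) S.Ω‖ ^ 2)
        ≤ (6 + 384 * L ^ 2) * κ ^ 2 * ‖a S.Ω‖ ^ 2 := by
  set N := ‖a S.Ω‖ with hNdef
  have hN0 : 0 < N := norm_pos_iff.2 hN
  have hL := hx.nonneg
  have hR : κ ≤ 1 / κ := by rw [le_div_iff₀ hκ]; nlinarith
  have hR2 : (2 : ℝ) ≤ 1 / κ := by rw [le_div_iff₀ hκ]; linarith
  have hkey := key_avg hB F ha.mem hx.mem (R := 1 / κ) hκ hR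
    (γ := κ ^ 2 * N ^ 2) (by positivity)
  have hP0 : Tendsto (fun δ => 4 / per δ) (𝓝 0) (𝓝 0) := by
    have : ∀ δ : ℝ, 4 / per δ = 4 / (2 * Real.pi) * δ := fun δ => by
      rw [per, div_div_eq_mul_div]; ring
    simp only [this]
    simpa using (tendsto_id (α := ℝ) (x := 𝓝 0)).const_mul (4 / (2 * Real.pi))
  filter_upwards [hkey, self_mem_nhdsWithin,
    (hP0.eventually (eventually_le_nhds
      (show 0 < min (1 / 4) (κ / (|p| + 1)) by positivity))).filter_mono nhdsWithin_le_nhds,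
    (eventually_le_nhds hκ).filter_mono nhdsWithin_le_nhds] with δ hkey hδ' hPm hδκ
  have hδ : 0 < δ := hδ'
  have hP := per_pos hδ
  rw [le_min_iff] at hPm
  obtain ⟨hP1, hPp⟩ := hPm
  have hP16 : 16 ≤ per δ := by
    rw [div_le_div_iff₀ hP (by norm_num)] at hP1; linarith
  have hPp' : 4 / per δ * |p| ≤ κ := by
    rw [le_div_iff₀ (by positivity)] at hPp
    nlinarith [show 0 ≤ 4 / per δ by positivity]
  have hp4 : |p| ≤ per δ / 4 := by
    rw [div_mul_eq_mul_div, div_le_iff₀ hP] at hPp'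
    nlinarith
  specialize hkey hδ
  set G2 := fun τ => a (hfun D δ x S.Ω (τ - p)) - hfun D δ x (a S.Ω) τ with hG2
  have hG2c : Continuous G2 := by fun_prop
  have hcoef : ∀ m, coef δ m G2 = ch δ m p • a (ek D hδ x m S.Ω) - ek D hδ x m (a S.Ω) :=
    fun m => by
    rw [coef_sub m (G := fun τ => a (hfun D δ x S.Ω (τ - p))) (by fun_prop) (by fun_prop),
      coef_map m (G := fun τ => hfun D δ x S.Ω (τ - p)) (by fun_prop),
      coef_sub_right hδ (supp_hfun D hδ x _) m hp4, map_smul, ← ek_apply _ hδ, ← ek_apply _ hδ]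
  have hrbσ : ∀ τ, ∀ b ∈ S.B, ‖b (D.σ τ x S.Ω)‖ ≤ L * ‖b S.Ω‖ := fun τ => hx.rb.σ hB τ
  -- near coefficients
  have hgood : ∀ s : Finset ℤ, (∀ m ∈ s, |(m : ℝ) * δ| < 1 / κ - 1) →
      ∑ m ∈ s, ‖coef δ m G2‖ ^ 2 ≤ (3 + 63 * L ^ 2) * κ ^ 2 * N ^ 2 := by
    intro s hs
    set A := fun k l : ℤ =>
      ‖(F.β (k * δ) a * ek D hδ x (k - l) - ek D hδ x (k - l) * F.β (l * δ) a) S.Ω‖ ^ 2 with hA
    set bk := fun k : ℤ => Complex.exp (I * (p * ((k : ℝ) * δ) : ℝ)) • a - F.β (k * δ) a with hbk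
    have hbkB : ∀ k, bk k ∈ S.B := fun k =>
      sub_mem_B hB (hB.smul _ _ ha.mem) (F.mem _ a ha.mem)
    set E := fun k l : ℤ => ‖bk k (ek D hδ x (k - l) S.Ω)‖ ^ 2 with hE
    have hl : ∀ l ∈ inner' κ δ, ∑ m ∈ s, ‖coef δ m G2‖ ^ 2
        ≤ 3 * (∑ k ∈ outer (1 / κ) δ, A k l) + 3 * (∑ k ∈ outer (1 / κ) δ, E k l)
          + 3 * L ^ 2 * κ ^ 2 * N ^ 2 := by
      intro l hl
      have hl' := abs_le_of_mem_inner hκ.le hδ hl
      set w := F.β (l * δ) a S.Ω - Complex.exp (I * (p * ((l : ℝ) * δ) : ℝ)) • a S.Ω with hw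
      have hm : ∀ m ∈ s, ‖coef δ m G2‖ ^ 2
          ≤ 3 * A (m + l) l + 3 * E (m + l) l + 3 * ‖ek D hδ x m w‖ ^ 2 := by
        intro m _
        have hph : Complex.exp (I * (p * ((l : ℝ) * δ) : ℝ)) * ch δ m p
            = Complex.exp (I * (p * (((m + l : ℤ) : ℝ) * δ) : ℝ)) := by
          rw [ch, ← Complex.exp_add]; push_cast; ring_nf
        have hn : ‖coef δ m G2‖
            = ‖Complex.exp (I * (p * ((l : ℝ) * δ) : ℝ)) • coef δ m G2‖ := by
          rw [norm_smul, mul_comm I, norm_exp_ofReal_mul_I, one_mul]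
        rw [hn, hcoef, smul_sub, smul_smul, hph]
        have e : Complex.exp (I * (p * (((m + l : ℤ) : ℝ) * δ) : ℝ)) • a (ek D hδ x m S.Ω)
            - Complex.exp (I * (p * ((l : ℝ) * δ) : ℝ)) • ek D hδ x m (a S.Ω)
            = (F.β ((m + l : ℤ) * δ) a * ek D hδ x m - ek D hδ x m * F.β (l * δ) a) S.Ω
              + bk (m + l) (ek D hδ x m S.Ω) + ek D hδ x m w := by
          simp only [hbk, hw, sub_apply, smul_apply, mul_apply_eq_comp, map_sub, map_smul]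
          abel
        rw [e]
        refine (norm_add3_sq _ _ _).trans_eq ?_
        simp only [hA, hE, add_sub_cancel_right]
      refine (Finset.sum_le_sum hm).trans ?_
      rw [Finset.sum_add_distrib, Finset.sum_add_distrib, ← Finset.mul_sum, ← Finset.mul_sum,
        ← Finset.mul_sum]
      have hsub : s.map (addRightEmbedding l) ⊆ outer (1 / κ) δ := by
        intro k hk
        obtain ⟨m, hm, rfl⟩ := Finset.mem_map.1 hk
        refine mem_outer hδ ?_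
        simp only [addRightEmbedding_apply]
        push_cast
        rw [add_mul]
        exact (abs_add_le _ _).trans (by linarith [hs m hm])
      have h1 : ∑ m ∈ s, A (m + l) l ≤ ∑ k ∈ outer (1 / κ) δ, A k l := by
        refine le_trans (le_of_eq (Finset.sum_map s (addRightEmbedding l) (fun k => A k l)).symm) ?_
        exact Finset.sum_le_sum_of_subset_of_nonneg hsub fun k _ _ => sq_nonneg _
      have h2 : ∑ m ∈ s, E (m + l) l ≤ ∑ k ∈ outer (1 / κ) δ, E k l := by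
        refine le_trans (le_of_eq (Finset.sum_map s (addRightEmbedding l) (fun k => E k l)).symm) ?_
        exact Finset.sum_le_sum_of_subset_of_nonneg hsub fun k _ _ => sq_nonneg _
      have h3 : ∑ m ∈ s, ‖ek D hδ x m w‖ ^ 2 ≤ (L * (κ * N)) ^ 2 := by
        refine bessel_hfun hδ x w (fun τ => ?_) s
        refine ((D.σ τ x).le_of_opNorm_le ((norm_σ_le D τ x).trans hx.norm_le) w).trans ?_
        refine mul_le_mul_of_nonneg_left ((ha.b _).trans ?_) hL
        refine mul_le_mul_of_nonneg_right ?_ hN0.le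
        calc κ ^ 3 * |(l : ℝ) * δ| ≤ 1 * κ :=
              mul_le_mul (pow_le_one₀ hκ.le (by linarith)) hl' (abs_nonneg _) zero_le_one
          _ = κ := one_mul κ
      linarith
    have hEsum : ∑ l ∈ inner' κ δ, ∑ k ∈ outer (1 / κ) δ, E k l
        ≤ (inner' κ δ).card * (20 * L ^ 2 * κ ^ 2 * N ^ 2) := by
      rw [Finset.sum_comm]
      have hk : ∀ k ∈ outer (1 / κ) δ,
          ∑ l ∈ inner' κ δ, E k l ≤ (L * (2 * κ ^ 2 * N)) ^ 2 := by
        intro k hk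
        have hk' := abs_le_of_mem_outer (by positivity) hδ hk
        have e : ∀ l, E k l = ‖coef δ (k - l) (fun τ => bk k (hfun D δ x S.Ω τ))‖ ^ 2 := fun l => by
          rw [hE, coef_map _ (by fun_prop), ← ek_apply _ hδ]
        have hinj : Function.Injective fun l : ℤ => k - l := fun u v h => by
          simp only at h; omega
        simp only [e]
        refine le_trans (le_of_eq (Finset.sum_map (inner' κ δ) ⟨fun l => k - l, hinj⟩
          (fun m => ‖coef δ m (fun τ => bk k (hfun D δ x S.Ω τ))‖ ^ 2)).symm) ?_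
        refine (bessel hδ (by fun_prop) _).trans (pmean_le_const hδ (by fun_prop) fun τ => ?_)
        refine pow_le_pow_left₀ (norm_nonneg _) ?_ 2
        rw [hfun, map_smul, norm_smul, norm_real, Real.norm_of_nonneg (hat_nonneg _ _)]
        refine (mul_le_of_le_one_left (norm_nonneg _) (hat_le_one hδ τ)).trans
          ((hrbσ τ _ (hbkB k)).trans (mul_le_mul_of_nonneg_left ?_ hL))
        rw [hbk]
        simp only [sub_apply, smul_apply]
        rw [norm_sub_rev]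
        refine (ha.b _).trans (mul_le_mul_of_nonneg_right ?_ hN0.le)
        calc κ ^ 3 * |(k : ℝ) * δ| ≤ κ ^ 3 * (2 / κ) := by
              refine mul_le_mul_of_nonneg_left (hk'.trans ?_) (by positivity)
              rw [show 2 / κ = 1 / κ + 1 / κ by ring]; linarith
          _ = 2 * κ ^ 2 := by field_simp
      refine (Finset.sum_le_sum hk).trans ?_
      rw [Finset.sum_const, nsmul_eq_mul]
      refine (mul_le_mul_of_nonneg_right (outer_card_le hκ (by linarith) hδ hδκ)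
        (sq_nonneg _)).trans_eq ?_
      field_simp
      ring
    have hsum := Finset.sum_le_sum hl
    rw [Finset.sum_const, nsmul_eq_mul, Finset.sum_add_distrib, Finset.sum_add_distrib,
      ← Finset.mul_sum, ← Finset.mul_sum, Finset.sum_const, nsmul_eq_mul] at hsum
    have hc : (0 : ℝ) < (inner' κ δ).card := by exact_mod_cast inner_card_pos κ δ
    refine le_of_mul_le_mul_left (hsum.trans ?_) hc
    linarith [show ∑ l ∈ inner' κ δ, ∑ k ∈ outer (1 / κ) δ, A k l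
      ≤ κ ^ 2 * N ^ 2 * (inner' κ δ).card from hkey]
  -- far coefficients
  have hbad : ∀ s : Finset ℤ, (∀ m ∈ s, ¬|(m : ℝ) * δ| < 1 / κ - 1) →
      ∑ m ∈ s, ‖coef δ m G2‖ ^ 2 ≤ 128 * L ^ 2 * κ ^ 2 * N ^ 2 := by
    intro s hs
    have hb : (0 : ℝ) < 1 / (2 * κ) := by positivity
    have hbP : 2 / (1 / (2 * κ)) ≤ per δ / 4 := by rw [div_div_eq_mul_div, div_one]; linarith
    have hs' : ∀ m ∈ s, 1 / (2 * κ) ≤ |(m : ℝ) * δ + 0| := fun m hm => by
      rw [add_zero]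
      refine le_trans ?_ (not_lt.1 (hs m hm))
      rw [show 1 / (2 * κ) = 1 / κ / 2 by ring]
      linarith
    have hlip : ∀ θ ∈ Set.Icc (0 : ℝ) (2 / (1 / (2 * κ))), ∀ τ,
        hfun D δ x S.Ω (τ + θ) - hfun D δ x S.Ω τ
          = ((hat δ (τ + θ) - hat δ τ : ℝ) : ℂ) • D.σ (τ + θ) x S.Ω
            + (hat δ τ : ℂ) • D.σ τ (D.σ θ x - x) S.Ω := by
      intro θ _ τ
      simp only [hfun, σ_sub, ← σ_add, sub_apply, ofReal_sub, sub_smul, smul_sub]
      abel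
    have h1 := concentrate hδ (G := fun τ => a (hfun D δ x S.Ω τ)) (by fun_prop)
      (fun τ hτ => by simp [supp_hfun D hδ x S.Ω τ hτ]) (ω := 0) (K := 2 * L * N) hb hbP
      (fun θ hθ τ => by
        rw [zero_mul, ofReal_zero, zero_mul, Complex.exp_zero, one_smul, ← map_sub,
          hlip θ hθ τ, map_add, map_smul, map_smul]
        refine (norm_add_le _ _).trans ?_
        rw [norm_smul, norm_smul, norm_real, norm_real, Real.norm_of_nonneg (hat_nonneg _ _),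
          Real.norm_eq_abs]
        refine (add_le_add (mul_le_mul (hat_lip hδ _ _) (hrbσ _ a ha.mem) (norm_nonneg _)
          (by positivity)) ((mul_le_of_le_one_left (norm_nonneg _) (hat_le_one hδ τ)).trans
            ((hx.rb_σ θ).σ hB τ a ha.mem))).trans ?_
        rw [add_sub_cancel_left, abs_of_nonneg hθ.1]
        have hlt : 4 / per δ ≤ 1 := by rw [div_le_iff₀ hP]; linarith
        have h0 : 0 ≤ θ * (L * N) := mul_nonneg hθ.1 (mul_nonneg hL hN0.le)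
        nlinarith [mul_le_mul_of_nonneg_right hlt h0])
      s hs'
    have h2 := concentrate hδ (G := hfun D δ x (a S.Ω)) (by fun_prop)
      (supp_hfun D hδ x _) (ω := 0) (K := 2 * L * N) hb hbP
      (fun θ hθ τ => by
        rw [zero_mul, ofReal_zero, zero_mul, Complex.exp_zero, one_smul]
        have e : hfun D δ x (a S.Ω) (τ + θ) - hfun D δ x (a S.Ω) τ
            = ((hat δ (τ + θ) - hat δ τ : ℝ) : ℂ) • D.σ (τ + θ) x (a S.Ω)
              + (hat δ τ : ℂ) • D.σ τ (D.σ θ x - x) (a S.Ω) := by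
          simp only [hfun, σ_sub, ← σ_add, sub_apply, ofReal_sub, sub_smul, smul_sub]
          abel
        rw [e]
        refine (norm_add_le _ _).trans ?_
        rw [norm_smul, norm_smul, norm_real, norm_real, Real.norm_of_nonneg (hat_nonneg _ _),
          Real.norm_eq_abs]
        refine (add_le_add (mul_le_mul (hat_lip hδ _ _)
          ((D.σ (τ + θ) x).le_of_opNorm_le ((norm_σ_le D _ x).trans hx.norm_le) _) (norm_nonneg _)
          (by positivity)) ((mul_le_of_le_one_left (norm_nonneg _) (hat_le_one hδ τ)).trans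
            ((D.σ τ (D.σ θ x - x)).le_of_opNorm_le
              ((norm_σ_le D τ _).trans (hx.σ_lip θ)) _))).trans ?_
        rw [add_sub_cancel_left, abs_of_nonneg hθ.1]
        have hlt : 4 / per δ ≤ 1 := by rw [div_le_iff₀ hP]; linarith
        have h0 : 0 ≤ θ * (L * N) := mul_nonneg hθ.1 (mul_nonneg hL hN0.le)
        nlinarith [mul_le_mul_of_nonneg_right hlt h0])
      s hs'
    simp only [coef_map _ (continuous_hfun D δ x S.Ω), ← ek_apply _ hδ] at h1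
    simp only [← ek_apply _ hδ] at h2
    have hm : ∀ m ∈ s, ‖coef δ m G2‖ ^ 2
        ≤ 2 * ‖a (ek D hδ x m S.Ω)‖ ^ 2 + 2 * ‖ek D hδ x m (a S.Ω)‖ ^ 2 := by
      intro m _
      rw [hcoef]
      refine (norm_sub_sq_le _ _).trans_eq ?_
      rw [norm_smul, norm_ch, one_mul]
    refine (Finset.sum_le_sum hm).trans ?_
    rw [Finset.sum_add_distrib, ← Finset.mul_sum, ← Finset.mul_sum]
    have e : 2 * (2 * L * N) ^ 2 / (1 / (2 * κ)) ^ 2 = 32 * L ^ 2 * κ ^ 2 * N ^ 2 := by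
      field_simp; ring
    rw [e] at h1 h2
    linarith
  have hmain := pmean_split hδ hG2c _ hgood hbad
  -- pass to the unshifted hat, then rotate
  set G4 := fun τ => (hat δ τ : ℂ) • ((a * D.σ (τ - p) x - D.σ τ x * a) S.Ω) with hG4
  have hG4c : Continuous G4 := by
    simp only [hG4, sub_apply, mul_apply_eq_comp]; fun_prop
  have hb4 : ∀ τ, ‖G4 τ‖ ^ 2 ≤ 2 * ‖G2 τ‖ ^ 2 + 2 * (L * κ * N) ^ 2 := by
    intro τ
    have e : G4 τ = G2 τ - ((hat δ (τ - p) - hat δ τ : ℝ) : ℂ) • a (D.σ (τ - p) x S.Ω) := by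
      simp only [hG4, hG2, hfun, sub_apply, mul_apply_eq_comp, map_smul, ofReal_sub, sub_smul,
        smul_sub]
      abel
    rw [e]
    refine (norm_sub_sq_le _ _).trans ?_
    gcongr
    rw [norm_smul, norm_real, Real.norm_eq_abs]
    refine (mul_le_mul (hat_lip hδ _ _) (hrbσ _ a ha.mem) (norm_nonneg _) (by positivity)).trans ?_
    rw [sub_sub_cancel_left, abs_neg]
    calc 4 / per δ * |p| * (L * N) ≤ κ * (L * N) :=
          mul_le_mul_of_nonneg_right hPp' (mul_nonneg hL hN0.le)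
      _ = L * κ * N := by ring
  have hrot : ∀ τ, hat δ τ ^ 2 * ‖(D.σ τ a * D.σ (-p) x - x * D.σ τ a) S.Ω‖ ^ 2
      = ‖G4 (-τ)‖ ^ 2 := by
    intro τ
    have e : (D.σ τ a * D.σ (-p) x - x * D.σ τ a) S.Ω
        = D.U τ ((a * D.σ (-τ - p) x - D.σ (-τ) x * a) S.Ω) := by
      rw [← σ_Ω, σ_sub, σ_mul, σ_mul, ← σ_add, ← σ_add, show τ + (-τ - p) = -p by ring,
        add_neg_cancel, σ_zero]
    rw [e, norm_U, hG4, norm_smul, norm_real, Real.norm_of_nonneg (hat_nonneg _ _), hat_neg,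
      mul_pow]
  simp only [hrot]
  have hneg : pmean δ (fun τ => ‖G4 (-τ)‖ ^ 2) = pmean δ (fun τ => ‖G4 τ‖ ^ 2) := by
    rw [pmean, pmean, intervalIntegral.integral_comp_neg (fun τ => ‖G4 τ‖ ^ 2), neg_neg]
  rw [hneg]
  have hc2 : Continuous fun τ => 2 * ‖G2 τ‖ ^ 2 := by fun_prop
  refine (pmean_mono hδ (g := fun τ => 2 * ‖G2 τ‖ ^ 2 + 2 * (L * κ * N) ^ 2) (hG4c.norm.pow 2)
    (hc2.add continuous_const) hb4).trans ?_
  rw [pmean_add hc2 continuous_const, pmean_const_mul, pmean_const hδ]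
  linarith

end P132.RouteA
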