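import Vale.Agent.P132.Setup
import Vale.Agent.P132.Core.Ops
import Vale.Agent.P132.Tomita.Smoothing

/-!
# P132 route A: elementary consequences of the interfaces
-/

noncomputable section

set_option linter.unusedSectionVars false

namespace P132.RouteA

open MeasureTheory Complex Filter Topology
open scoped InnerProductSpace ComplexConjugate
open Vale.Agent.P132.Tomita (NormalisingGroup avgOp avgOp_apply avgOp_mem)

variable {H : Type*} [NormedAddCommGroup H] [InnerProductSpace ℂ H] [CompleteSpace H]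
variable {S : Std H} {D : Modular S}

/-! ### The unitary group and the modular automorphisms -/

theorem normGroup (D : Modular S) : NormalisingGroup S.M D.U :=
  ⟨D.U_zero, D.U_add, D.U_star, D.U_cont, D.σ_mem⟩

theorem U_comp (D : Modular S) (s t : ℝ) (v : H) : D.U s (D.U t v) = D.U (s + t) v := by
  rw [D.U_add, mul_apply_eq_comp]

theorem U_zero_apply (D : Modular S) (v : H) : D.U 0 v = v := by
  rw [D.U_zero, one_apply_eq_self]

theorem U_neg_comp (D : Modular S) (t : ℝ) (v : H) : D.U (-t) (D.U t v) = v := by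
  rw [U_comp, neg_add_cancel, U_zero_apply]

theorem norm_U (D : Modular S) (t : ℝ) (v : H) : ‖D.U t v‖ = ‖v‖ := (normGroup D).norm_apply t v

theorem σ_apply (D : Modular S) (t : ℝ) (x : H →L[ℂ] H) (v : H) :
    D.σ t x v = D.U t (x (D.U (-t) v)) := rfl

theorem σ_Ω (D : Modular S) (t : ℝ) (x : H →L[ℂ] H) : D.σ t x S.Ω = D.U t (x S.Ω) := by
  rw [σ_apply, D.U_Ω]

theorem σ_add (D : Modular S) (s t : ℝ) (x : H →L[ℂ] H) : D.σ (s + t) x = D.σ s (D.σ t x) := by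
  ext v
  simp only [σ_apply, U_comp]
  rw [show -t + -s = -(s + t) by ring]

theorem σ_zero (D : Modular S) (x : H →L[ℂ] H) : D.σ 0 x = x := by
  ext v; simp only [σ_apply, neg_zero, U_zero_apply]

theorem σ_mul (D : Modular S) (t : ℝ) (x y : H →L[ℂ] H) :
    D.σ t (x * y) = D.σ t x * D.σ t y := by
  ext v; simp only [σ_apply, mul_apply_eq_comp, U_neg_comp]

theorem σ_sub (D : Modular S) (t : ℝ) (x y : H →L[ℂ] H) :
    D.σ t (x - y) = D.σ t x - D.σ t y := by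
  simp only [Modular.σ, mul_sub, sub_mul]

theorem σ_smul (D : Modular S) (t : ℝ) (c : ℂ) (x : H →L[ℂ] H) :
    D.σ t (c • x) = c • D.σ t x := by
  simp only [Modular.σ, mul_smul_comm, smul_mul_assoc]

theorem σ_star (D : Modular S) (t : ℝ) (x : H →L[ℂ] H) : D.σ t (star x) = star (D.σ t x) := by
  simp only [Modular.σ, star_mul, D.U_star, neg_neg, mul_assoc]

theorem norm_σ_le (D : Modular S) (t : ℝ) (x : H →L[ℂ] H) : ‖D.σ t x‖ ≤ ‖x‖ :=
  ContinuousLinearMap.opNorm_le_bound _ (norm_nonneg _) fun v => (normGroup D).norm_orbit_le x v t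

@[fun_prop]
theorem continuous_σ_apply (D : Modular S) (x : H →L[ℂ] H) (v : H) :
    Continuous fun t => D.σ t x v :=
  (normGroup D).continuous_orbit x v

/-- Elements of `M` are determined by their vectors. -/
theorem ext_Ω {x y : H →L[ℂ] H} (hx : x ∈ S.M) (hy : y ∈ S.M) (h : x S.Ω = y S.Ω) : x = y :=
  sub_eq_zero.1 <| S.separating _ (sub_mem hx hy) <| by rw [sub_apply, h, sub_self]

/-- `J y J`. -/
def jop (D : Modular S) (y : H →L[ℂ] H) : H →L[ℂ] H :=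
  D.J.toLinearIsometry.toContinuousLinearMap.comp
    (y.comp D.J.toLinearIsometry.toContinuousLinearMap)

theorem jop_apply (D : Modular S) (y : H →L[ℂ] H) (v : H) : jop D y v = D.J (y (D.J v)) := rfl

theorem jop_Ω (D : Modular S) (y : H →L[ℂ] H) : jop D y S.Ω = D.J (y S.Ω) := by
  rw [jop_apply, D.J_Ω]

theorem jop_comm (D : Modular S) {x y : H →L[ℂ] H} (hx : x ∈ S.M) (hy : y ∈ S.M) (v : H) :
    x (jop D y v) = jop D y (x v) :=
  D.J_commutant x hx y hy v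

theorem dense_jop (D : Modular S) : Dense {v : H | ∃ y ∈ S.M, jop D y S.Ω = v} := by
  refine Dense.mono ?_ (DenseRange.dense_image D.J.surjective.denseRange D.J.continuous S.cyclic)
  rintro _ ⟨_, ⟨y, hy, rfl⟩, rfl⟩
  exact ⟨y, hy, jop_Ω D y⟩

/-- The right bound coming from the commutant. -/
theorem norm_apply_J (D : Modular S) {b g : H →L[ℂ] H} (hb : b ∈ S.M) (hg : g ∈ S.M) :
    ‖b (D.J (g S.Ω))‖ ≤ ‖g‖ * ‖b S.Ω‖ := by
  rw [← jop_Ω, jop_comm D hb hg, jop_apply, LinearIsometryEquiv.norm_map]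
  exact (g.le_opNorm _).trans_eq (by rw [LinearIsometryEquiv.norm_map])

/-- A uniformly bounded family is strongly continuous as soon as it is so at `Ω`. -/
theorem continuous_of_Ω (D : Modular S) {T : ℝ → H →L[ℂ] H} (hT : ∀ s, T s ∈ S.M) {C : ℝ}
    (hC : ∀ s, ‖T s‖ ≤ C) (hΩ : Continuous fun s => T s S.Ω) (v : H) :
    Continuous fun s => T s v := by
  have hC0 : 0 ≤ C := (norm_nonneg _).trans (hC 0)
  refine continuous_iff_continuousAt.2 fun s₀ => ?_
  rw [ContinuousAt, Metric.tendsto_nhds]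
  intro ε hε
  obtain ⟨_, ⟨y, hy, rfl⟩, hd⟩ := Metric.mem_closure_iff.1
    ((dense_jop D) v) (ε / (3 * (C + 1))) (by positivity)
  have hcont : Continuous fun s => T s (jop D y S.Ω) := by
    simp only [fun s => jop_comm D (hT s) hy S.Ω]
    exact (jop D y).continuous.comp hΩ
  filter_upwards [Metric.tendsto_nhds.1 (hcont.tendsto s₀) (ε / 3) (by positivity)] with s hs
  rw [dist_eq_norm] at hd hs ⊢
  have hb : ∀ u, ‖T u (v - jop D y S.Ω)‖ ≤ ε / 3 := fun u => by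
    refine (((T u).le_of_opNorm_le (hC u) _).trans
      (mul_le_mul_of_nonneg_left hd.le hC0)).trans ?_
    rw [← mul_div_assoc, div_le_div_iff₀ (by positivity) (by positivity)]
    nlinarith
  calc ‖T s v - T s₀ v‖ = ‖T s (v - jop D y S.Ω) +
        (T s (jop D y S.Ω) - T s₀ (jop D y S.Ω)) - T s₀ (v - jop D y S.Ω)‖ := by
        rw [map_sub, map_sub]; abel_nf
    _ ≤ ‖T s (v - jop D y S.Ω) + (T s (jop D y S.Ω) - T s₀ (jop D y S.Ω))‖ +
          ‖T s₀ (v - jop D y S.Ω)‖ := norm_sub_le _ _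
    _ < ε := by
      linarith [norm_add_le (T s (v - jop D y S.Ω)) (T s (jop D y S.Ω) - T s₀ (jop D y S.Ω)),
        hb s, hb s₀]

/-! ### The bicentralizer and its closed span -/

theorem mem_M (hB : BFacts D) {x : H →L[ℂ] H} (hx : x ∈ S.B) : x ∈ S.M := hB.subset hx

theorem neg_mem_B (hB : BFacts D) {x : H →L[ℂ] H} (hx : x ∈ S.B) : -x ∈ S.B := by
  simpa using hB.smul (-1) x hx

theorem sub_mem_B (hB : BFacts D) {x y : H →L[ℂ] H} (hx : x ∈ S.B) (hy : y ∈ S.B) :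
    x - y ∈ S.B := by
  rw [sub_eq_add_neg]; exact hB.add x hx _ (neg_mem_B hB hy)

/-- `B Ω` as a subspace. -/
def BΩ (hB : BFacts D) : Submodule ℂ H where
  carrier := {v | ∃ x ∈ S.B, x S.Ω = v}
  zero_mem' := ⟨0, by simpa using hB.smul 0 1 hB.one, by simp⟩
  add_mem' := by
    rintro _ _ ⟨x, hx, rfl⟩ ⟨y, hy, rfl⟩
    exact ⟨x + y, hB.add x hx y hy, rfl⟩
  smul_mem' := by
    rintro c _ ⟨x, hx, rfl⟩
    exact ⟨c • x, hB.smul c x hx, rfl⟩

/-- Its closure. -/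
def KB (hB : BFacts D) : Submodule ℂ H := (BΩ hB).topologicalClosure

theorem isClosed_KB (hB : BFacts D) : IsClosed (KB hB : Set H) :=
  (BΩ hB).isClosed_topologicalClosure

theorem apply_mem_KB (hB : BFacts D) {x : H →L[ℂ] H} (hx : x ∈ S.B) : x S.Ω ∈ KB hB :=
  (BΩ hB).le_topologicalClosure ⟨x, hx, rfl⟩

theorem mem_of_KB (hB : BFacts D) {x : H →L[ℂ] H} (hx : x ∈ S.M) (h : x S.Ω ∈ KB hB) :
    x ∈ S.B := by
  refine hB.sot_closed x hx fun ε hε => ?_
  have h' : x S.Ω ∈ closure (BΩ hB : Set H) := by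
    exact (Submodule.topologicalClosure_coe (BΩ hB)) ▸ h
  obtain ⟨_, ⟨y, hy, rfl⟩, hd⟩ := Metric.mem_closure_iff.1 h' ε hε
  exact ⟨y, hy, by rw [sub_apply, ← dist_eq_norm]; exact hd.le⟩

theorem eq_of_inner_KB (hB : BFacts D) {v w : H} (hv : v ∈ KB hB) (hw : w ∈ KB hB)
    (h : ∀ z ∈ S.B, ⟪v, z S.Ω⟫_ℂ = ⟪w, z S.Ω⟫_ℂ) : v = w := by
  have hcl : (KB hB : Set H) ⊆ {u | ⟪v, u⟫_ℂ = ⟪w, u⟫_ℂ} := by
    rw [KB, Submodule.topologicalClosure_coe]
    exact closure_minimal (by rintro _ ⟨z, hz, rfl⟩; exact h z hz)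
      (isClosed_eq (continuous_const.inner continuous_id) (continuous_const.inner continuous_id))
  have h1 : ⟪v - w, v - w⟫_ℂ = 0 := by
    rw [inner_sub_left, sub_eq_zero]; exact hcl (sub_mem hv hw)
  exact sub_eq_zero.1 (inner_self_eq_zero.1 h1)

theorem integral_mem_closed {K : Submodule ℂ H} (hK : IsClosed (K : Set H)) {f : ℝ → H}
    (hf : Integrable f) (h : ∀ t, f t ∈ K) : ∫ t, f t ∈ K := by
  have : CompleteSpace K := hK.completeSpace_coe
  have e : K.starProjection (∫ t, f t) = ∫ t, f t := by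
    rw [← K.starProjection.integral_comp_comm hf]
    simp only [Submodule.starProjection_eq_self_iff.2 (h _)]
  exact Submodule.starProjection_eq_self_iff.1 e

/-- `∫ k (t) σ_t c`. -/
def σint (D : Modular S) (k : ℝ → ℂ) (hk : Integrable k) (c : H →L[ℂ] H) : H →L[ℂ] H :=
  avgOp (normGroup D) hk c

theorem σint_apply (D : Modular S) (k : ℝ → ℂ) (hk : Integrable k) (c : H →L[ℂ] H) (v : H) :
    σint D k hk c v = ∫ t, k t • D.σ t c v := rfl

theorem integrable_σ (D : Modular S) {k : ℝ → ℂ} (hk : Integrable k) (c : H →L[ℂ] H) (v : H) :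
    Integrable fun t => k t • D.σ t c v :=
  (normGroup D).integrable_smul_orbit hk c v

theorem σint_mem_M (D : Modular S) {k : ℝ → ℂ} (hk : Integrable k) {c : H →L[ℂ] H}
    (hc : c ∈ S.M) : σint D k hk c ∈ S.M :=
  avgOp_mem _ hk hc

theorem σint_mem (hB : BFacts D) {k : ℝ → ℂ} (hk : Integrable k) {c : H →L[ℂ] H}
    (hc : c ∈ S.B) : σint D k hk c ∈ S.B := by
  refine mem_of_KB hB (σint_mem_M D hk (mem_M hB hc)) ?_
  rw [σint_apply]
  exact integral_mem_closed (isClosed_KB hB) (integrable_σ D hk c _)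
    fun t => (KB hB).smul_mem _ (apply_mem_KB hB (hB.σ_mem t c hc))

/-! ### The bicentralizer flow -/

variable (F : Flow D)

theorem β_sub (hB : BFacts D) (s : ℝ) {x y : H →L[ℂ] H} (hx : x ∈ S.B) (hy : y ∈ S.B) :
    F.β s (x - y) = F.β s x - F.β s y := by
  have := F.map_add s (x - y) (sub_mem_B hB hx hy) y hy
  rw [sub_add_cancel] at this
  rw [this, add_sub_cancel_right]

theorem β_neg_comp (s : ℝ) {x : H →L[ℂ] H} (hx : x ∈ S.B) : F.β s (F.β (-s) x) = x := by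
  rw [← F.add s (-s) x hx, add_neg_cancel, F.zero x hx]

theorem φ_star_mul (x y : H →L[ℂ] H) : S.φ (star x * y) = ⟪x S.Ω, y S.Ω⟫_ℂ := by
  simp [Std.φ, ContinuousLinearMap.star_eq_adjoint, ContinuousLinearMap.adjoint_inner_right]

theorem inner_β (hB : BFacts D) (s : ℝ) {x y : H →L[ℂ] H} (hx : x ∈ S.B) (hy : y ∈ S.B) :
    ⟪F.β s x S.Ω, F.β s y S.Ω⟫_ℂ = ⟪x S.Ω, y S.Ω⟫_ℂ := by
  rw [← φ_star_mul, ← φ_star_mul, ← F.map_star s x hx,
    ← F.map_mul s _ (hB.star_mem x hx) y hy, F.preserves s _ (hB.mul _ (hB.star_mem x hx) y hy)]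

theorem norm_β_Ω (hB : BFacts D) (s : ℝ) {x : H →L[ℂ] H} (hx : x ∈ S.B) :
    ‖F.β s x S.Ω‖ = ‖x S.Ω‖ := by
  have h := inner_β F hB s hx hx
  rw [inner_self_eq_norm_sq_to_K, inner_self_eq_norm_sq_to_K] at h
  exact (pow_left_inj₀ (norm_nonneg _) (norm_nonneg _) two_ne_zero).1 (by exact_mod_cast h)

theorem inner_β_left (hB : BFacts D) (s : ℝ) {x y : H →L[ℂ] H} (hx : x ∈ S.B) (hy : y ∈ S.B) :
    ⟪F.β s x S.Ω, y S.Ω⟫_ℂ = ⟪x S.Ω, F.β (-s) y S.Ω⟫_ℂ := by
  conv_lhs => rw [← β_neg_comp F s hy]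
  rw [inner_β F hB s hx (F.mem _ y hy)]

theorem norm_σ_Ω (D : Modular S) (t : ℝ) (x : H →L[ℂ] H) : ‖D.σ t x S.Ω‖ = ‖x S.Ω‖ := by
  rw [σ_Ω, norm_U]

theorem continuous_β_apply (hB : BFacts D) {x : H →L[ℂ] H} (hx : x ∈ S.B) (v : H) :
    Continuous fun s => F.β s x v :=
  continuous_of_Ω D (fun s => mem_M hB (F.mem s x hx)) (fun s => F.norm_le s x hx) (F.cont x hx) v

/-- Right bound on the bicentralizer. -/
def RB (S : Std H) (z : H →L[ℂ] H) (L : ℝ) : Prop :=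
  ∀ b ∈ S.B, ‖b (z S.Ω)‖ ≤ L * ‖b S.Ω‖

theorem RB.β {z : H →L[ℂ] H} {L : ℝ} (hB : BFacts D) (hz : z ∈ S.B) (h : RB S z L) (u : ℝ) :
    RB S (F.β u z) L := by
  intro b hb
  have e : b (F.β u z S.Ω) = F.β u (F.β (-u) b * z) S.Ω := by
    rw [F.map_mul u _ (F.mem _ b hb) z hz, β_neg_comp F u hb, mul_apply_eq_comp]
  rw [e, norm_β_Ω F hB u (hB.mul _ (F.mem _ b hb) z hz), mul_apply_eq_comp]
  exact (h _ (F.mem _ b hb)).trans_eq (by rw [norm_β_Ω F hB (-u) hb])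

theorem RB.σ {z : H →L[ℂ] H} {L : ℝ} (hB : BFacts D) (h : RB S z L) (u : ℝ) :
    RB S (D.σ u z) L := by
  intro b hb
  have e : b (D.σ u z S.Ω) = D.U u ((D.σ (-u) b * z) S.Ω) := by
    rw [mul_apply_eq_comp, σ_Ω, σ_apply D (-u), U_comp, neg_neg, add_neg_cancel, U_zero_apply]
  rw [e, norm_U, mul_apply_eq_comp]
  exact (h _ (hB.σ_mem _ b hb)).trans_eq (by rw [norm_σ_Ω])

end P132.RouteA
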