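import Vale.Agent.P132.RouteA.Basic
import Vale.Agent.P132.RouteA.Period

/-!
# P132 route A: the mean ergodic theorem for the modular group on the bicentralizer
-/

noncomputable section

set_option linter.unusedSectionVars false

namespace P132.RouteA

open MeasureTheory Complex Filter Topology
open scoped InnerProductSpace ComplexConjugate

variable {H : Type*} [NormedAddCommGroup H] [InnerProductSpace ℂ H] [CompleteSpace H]
variable {S : Std H} {D : Modular S}

/-- A uniformly bounded sequence converging on a dense set converges everywhere. -/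
theorem exists_lim_of_dense {T : ℕ → H →L[ℂ] H} {C : ℝ} (hC : ∀ n, ‖T n‖ ≤ C) {s : Set H}
    (hs : Dense s) (h : ∀ w ∈ s, ∃ l, Tendsto (fun n => T n w) atTop (𝓝 l)) (v : H) :
    ∃ l, Tendsto (fun n => T n v) atTop (𝓝 l) := by
  have hC0 : 0 ≤ C := (norm_nonneg _).trans (hC 0)
  refine cauchySeq_tendsto_of_complete (Metric.cauchySeq_iff.2 fun ε hε => ?_)
  obtain ⟨w, hw, hd⟩ := Metric.mem_closure_iff.1 (hs v) (ε / (3 * (C + 1))) (by positivity)
  obtain ⟨l, hl⟩ := h w hw
  obtain ⟨N, hN⟩ := Metric.cauchySeq_iff.1 hl.cauchySeq (ε / 3) (by positivity)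
  refine ⟨N, fun m hm n hn => ?_⟩
  rw [dist_eq_norm] at hd ⊢
  have hb : ∀ k, ‖T k (v - w)‖ ≤ ε / 3 := fun k => by
    refine (((T k).le_of_opNorm_le (hC k) _).trans
      (mul_le_mul_of_nonneg_left hd.le hC0)).trans ?_
    rw [← mul_div_assoc, div_le_div_iff₀ (by positivity) (by positivity)]
    nlinarith
  have h3 := hN m hm n hn
  rw [dist_eq_norm] at h3
  calc ‖T m v - T n v‖ = ‖(T m (v - w) + (T m w - T n w)) - T n (v - w)‖ := by
        rw [map_sub, map_sub]; abel_nf
    _ ≤ ‖T m (v - w) + (T m w - T n w)‖ + ‖T n (v - w)‖ := norm_sub_le _ _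
    _ < ε := by linarith [norm_add_le (T m (v - w)) (T m w - T n w), hb m, hb n]

/-- The averaging kernel. -/
def ker2 (δ : ℝ) (τ : ℝ) : ℂ := (((per δ)⁻¹ * hat δ τ ^ 2 : ℝ) : ℂ)

theorem integrable_hat_sq {δ : ℝ} (hδ : 0 < δ) : Integrable fun τ => hat δ τ ^ 2 := by
  refine ((continuous_hat δ).pow 2).integrable_of_hasCompactSupport
    (HasCompactSupport.intro (isCompact_Icc (a := -(per δ / 4)) (b := per δ / 4)) fun s hs => ?_)
  rw [Set.mem_Icc, ← abs_le, not_le] at hs
  simp [hat_eq_zero hδ hs.le]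

theorem integrable_ker2 {δ : ℝ} (hδ : 0 < δ) : Integrable (ker2 δ) :=
  ((integrable_hat_sq hδ).const_mul _).ofReal

/-- The mean over the period of a function vanishing outside its middle half. -/
theorem pmean_eq_integral {δ : ℝ} (hδ : 0 < δ) {f : ℝ → ℝ}
    (hf : ∀ τ, per δ / 4 ≤ |τ| → f τ = 0) : pmean δ f = (per δ)⁻¹ * ∫ τ, f τ := by
  have hP := per_pos hδ
  rw [pmean, intervalIntegral.integral_eq_integral_of_support_subset]
  intro τ hτ
  have h : |τ| < per δ / 4 := lt_of_not_ge fun h => hτ (hf τ h)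
  rw [abs_lt] at h
  exact ⟨by linarith, by linarith⟩

theorem integral_norm_ker2 {δ : ℝ} (hδ : 0 < δ) : ∫ τ, ‖ker2 δ τ‖ = hatSq := by
  have hP := per_pos hδ
  have e : ∀ τ, ‖ker2 δ τ‖ = (per δ)⁻¹ * hat δ τ ^ 2 := fun τ => by
    rw [ker2, norm_real, Real.norm_of_nonneg (by positivity)]
  simp only [e]
  rw [integral_const_mul, ← pmean_eq_integral hδ, pmean_hat_sq hδ]
  intro τ hτ
  simp [hat_eq_zero hδ hτ]

theorem integral_ker2 {δ : ℝ} (hδ : 0 < δ) : ∫ τ, ker2 δ τ = (hatSq : ℂ) := by
  simp only [ker2]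
  rw [integral_complex_ofReal, integral_const_mul, ← pmean_eq_integral hδ, pmean_hat_sq hδ]
  intro τ hτ
  simp [hat_eq_zero hδ hτ]

/-- The sequence of frequencies used in the limit. -/
def dj (j : ℕ) : ℝ := 1 / ((j : ℝ) + 1)

theorem dj_pos (j : ℕ) : 0 < dj j := by unfold dj; positivity

theorem tendsto_dj : Tendsto dj atTop (𝓝 0) := tendsto_one_div_add_atTop_nhds_zero_nat

theorem tendsto_inv_per : Tendsto (fun j => (per (dj j))⁻¹) atTop (𝓝 0) := by
  have : ∀ j, (per (dj j))⁻¹ = dj j / (2 * Real.pi) := fun j => by rw [per, inv_div]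
  simp only [this]
  simpa using tendsto_dj.div_const (2 * Real.pi)

/-- The averages of the unitary group. -/
def avgU (D : Modular S) (j : ℕ) : H →L[ℂ] H :=
  Core.smear (ker2 (dj j)) (integrable_ker2 (dj_pos j))
    ⟨D.U, 1, fun t => ContinuousLinearMap.opNorm_le_bound _ zero_le_one fun v => by
      rw [norm_U, one_mul], D.U_cont⟩

theorem avgU_apply (D : Modular S) (j : ℕ) (v : H) :
    avgU D j v = ∫ t, ker2 (dj j) t • D.U t v := rfl

theorem integrable_avgU (D : Modular S) (j : ℕ) (v : H) :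
    Integrable fun t => ker2 (dj j) t • D.U t v :=
  Core.integrable_smear (integrable_ker2 (dj_pos j))
    ⟨D.U, 1, fun t => ContinuousLinearMap.opNorm_le_bound _ zero_le_one fun v => by
      rw [norm_U, one_mul], D.U_cont⟩ v

theorem norm_avgU_le (D : Modular S) (j : ℕ) : ‖avgU D j‖ ≤ hatSq :=
  ContinuousLinearMap.opNorm_le_bound _ hatSq_pos.le fun v => by
    rw [avgU_apply]
    refine (norm_integral_le_of_norm_le ((integrable_ker2 (dj_pos j)).norm.mul_const ‖v‖)
      (Eventually.of_forall fun t => (by rw [norm_smul, norm_U]))).trans_eq ?_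
    rw [integral_mul_const, integral_norm_ker2 (dj_pos j)]

/-- Averages of differences tend to zero. -/
theorem tendsto_avgU_sub (D : Modular S) (s : ℝ) (u : H) :
    Tendsto (fun j => avgU D j (D.U s u - u)) atTop (𝓝 0) := by
  refine squeeze_zero_norm (a := fun j => (per (dj j))⁻¹ * (8 * |s| * ‖u‖)) (fun j => ?_)
    (by simpa using tendsto_inv_per.mul_const (8 * |s| * ‖u‖))
  set δ := dj j with hδdef
  have hδ : 0 < δ := dj_pos j
  have hP := per_pos hδ
  have hi := integrable_avgU D j u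
  have hi' : Integrable fun t => ker2 δ (t - s) • D.U t u := by
    have h := (integrable_avgU D j (D.U s u)).comp_sub_right s
    simpa only [U_comp, sub_add_cancel] using h
  have e : avgU D j (D.U s u - u) = ∫ t, (ker2 δ (t - s) - ker2 δ t) • D.U t u := by
    rw [map_sub, avgU_apply, avgU_apply, ← integral_sub_right_eq_self _ s]
    simp only [U_comp, sub_add_cancel, ← hδdef, sub_smul]
    rw [← integral_sub hi' hi]
  rw [e]
  set A : ℝ → ℝ := Set.indicator (Set.Icc (-(per δ / 4)) (per δ / 4)) (fun _ => 1) with hA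
  have hAi : Integrable A := by
    rw [hA]
    exact (integrableOn_const (C := (1 : ℝ)) (hs := by simp)).integrable_indicator measurableSet_Icc
  have hA0 : ∀ t, 0 ≤ A t := fun t => Set.indicator_nonneg (fun _ _ => zero_le_one) t
  have hA1 : ∫ t, A t = per δ / 2 := by
    rw [hA, integral_indicator measurableSet_Icc, setIntegral_const, Measure.real,
      Real.volume_Icc, ENNReal.toReal_ofReal (by linarith)]
    simp; ring
  refine (norm_integral_le_of_norm_le
    (g := fun t => ((per δ)⁻¹ * (8 / per δ * |s|) * ‖u‖) * (A (t - s) + A t))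
    (((hAi.comp_sub_right s).add hAi).const_mul _) (Eventually.of_forall fun t => ?_)).trans_eq ?_
  · rw [norm_smul, norm_U, ker2, ker2, ← ofReal_sub, norm_real, Real.norm_eq_abs, ← mul_sub,
      abs_mul, abs_of_pos (inv_pos.2 hP)]
    have h1 : |hat δ (t - s) ^ 2 - hat δ t ^ 2| ≤ 8 / per δ * |s| * (A (t - s) + A t) := by
      by_cases h : hat δ (t - s) = 0 ∧ hat δ t = 0
      · rw [h.1, h.2]
        have := hA0 (t - s); have := hA0 t
        simp; positivity
      · refine le_trans ?_ (le_mul_of_one_le_right (by positivity) ?_)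
        · have l := hat_lip hδ (t - s) t
          rw [show t - s - t = -s by ring, abs_neg] at l
          rw [sq_sub_sq, abs_mul, show 8 / per δ * |s| = 2 * (4 / per δ * |s|) by ring]
          refine mul_le_mul ?_ l (abs_nonneg _) (by norm_num)
          rw [abs_of_nonneg (add_nonneg (hat_nonneg _ _) (hat_nonneg _ _))]
          linarith [hat_le_one hδ (t - s), hat_le_one hδ t]
        · have hmem : ∀ τ, hat δ τ ≠ 0 → A τ = 1 := fun τ hτ =>
            Set.indicator_of_mem (show τ ∈ Set.Icc _ _ from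
              abs_le.1 (lt_of_not_ge fun h' => hτ (hat_eq_zero hδ h')).le) _
          rw [not_and_or] at h
          rcases h with h | h
          · linarith [hmem _ h, hA0 t]
          · linarith [hmem _ h, hA0 (t - s)]
    calc (per δ)⁻¹ * |hat δ (t - s) ^ 2 - hat δ t ^ 2| * ‖u‖
        ≤ (per δ)⁻¹ * (8 / per δ * |s| * (A (t - s) + A t)) * ‖u‖ := by gcongr
      _ = _ := by ring
  · rw [integral_const_mul, integral_add (hAi.comp_sub_right s) hAi,
      integral_sub_right_eq_self A s, hA1]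
    field_simp
    ring

theorem tendsto_avgU_fixed (D : Modular S) {v : H} (hv : ∀ t, D.U t v = v) :
    Tendsto (fun j => avgU D j v) atTop (𝓝 ((hatSq : ℂ) • v)) := by
  have : ∀ j, avgU D j v = (hatSq : ℂ) • v := fun j => by
    simp only [avgU_apply, hv]
    rw [integral_smul_const, integral_ker2 (dj_pos j)]
  simp only [this]
  exact tendsto_const_nhds

/-- The averages converge, to a fixed vector. -/
theorem exists_lim_avgU (D : Modular S) (v : H) :
    ∃ l, Tendsto (fun j => avgU D j v) atTop (𝓝 l) ∧ ∀ t, D.U t l = l := by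
  let C : Submodule ℂ H :=
    { carrier := {w | ∃ l, Tendsto (fun j => avgU D j w) atTop (𝓝 l)}
      zero_mem' := ⟨0, by simp⟩
      add_mem' := by
        rintro x y ⟨l, hl⟩ ⟨l', hl'⟩
        exact ⟨l + l', by simpa using hl.add hl'⟩
      smul_mem' := by
        rintro c x ⟨l, hl⟩
        exact ⟨c • l, by simpa using hl.const_smul c⟩ }
  have hd : Dense (C : Set H) := by
    rw [Submodule.dense_iff_topologicalClosure_eq_top, Submodule.topologicalClosure_eq_top_iff,
      eq_bot_iff]
    intro w hw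
    rw [Submodule.mem_orthogonal] at hw
    have hfix : ∀ t, D.U t w = w := by
      intro t
      refine ext_inner_left ℂ fun u => ?_
      have h := hw (D.U (-t) u - u) ⟨0, tendsto_avgU_sub D (-t) u⟩
      rw [inner_sub_left, sub_eq_zero] at h
      rw [← h, ← D.U_star t, ContinuousLinearMap.star_eq_adjoint,
        ContinuousLinearMap.adjoint_inner_left]
    exact inner_self_eq_zero.1 (hw w ⟨_, tendsto_avgU_fixed D hfix⟩)
  obtain ⟨l, hl⟩ := exists_lim_of_dense (norm_avgU_le D) hd (fun w hw => hw) v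
  refine ⟨l, hl, fun t => ?_⟩
  have h1 := ((D.U t).continuous.tendsto l).comp hl
  have e : ∀ j, D.U t (avgU D j v) = avgU D j (D.U t v) := fun j => by
    rw [avgU_apply, avgU_apply, ← (D.U t).integral_comp_comm (integrable_avgU D j v)]
    simp only [map_smul, U_comp, add_comm t]
  have h2 : Tendsto (fun j => avgU D j (D.U t v) - avgU D j v) atTop (𝓝 0) := by
    simpa only [map_sub] using tendsto_avgU_sub D t v
  have h3 : Tendsto (fun j => avgU D j (D.U t v) - avgU D j v) atTop (𝓝 (D.U t l - l)) := by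
    simpa only [Function.comp_def, e] using h1.sub hl
  exact sub_eq_zero.1 (tendsto_nhds_unique h3 h2)

/-- The weighted means of `σ_τ (b)` converge strongly to the scalar `φ (b)`. -/
theorem ergodic_op (hB : BFacts D) {b : H →L[ℂ] H} (hb : b ∈ S.B) (w : H) :
    Tendsto (fun j => σint D (ker2 (dj j)) (integrable_ker2 (dj_pos j)) b w) atTop
      (𝓝 (((hatSq : ℂ) * S.φ b) • w)) := by
  set T : ℕ → H →L[ℂ] H := fun j => σint D (ker2 (dj j)) (integrable_ker2 (dj_pos j)) b with hT
  have hTB : ∀ j, T j ∈ S.B := fun j => σint_mem hB _ hb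
  have hTΩ : ∀ j, T j S.Ω = avgU D j (b S.Ω) := fun j => by
    simp only [hT, σint_apply, σ_Ω, avgU_apply]
  obtain ⟨l, hl, hlfix⟩ := exists_lim_avgU D (b S.Ω)
  have hbd : ∀ j, ‖T j‖ ≤ hatSq * ‖b‖ := fun j =>
    (Vale.Agent.P132.Tomita.norm_avgOp_le _ _ _).trans_eq
      (by rw [integral_norm_ker2 (dj_pos j)])
  have hlim : ∀ v, ∃ l', Tendsto (fun j => T j v) atTop (𝓝 l') := by
    refine exists_lim_of_dense hbd (dense_jop D) ?_
    rintro _ ⟨y, hy, rfl⟩
    refine ⟨jop D y l, ?_⟩
    simp only [fun j => jop_comm D (mem_M hB (hTB j)) hy S.Ω, hTΩ]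
    exact ((jop D y).continuous.tendsto l).comp hl
  choose f hf using hlim
  set m : H →L[ℂ] H := continuousLinearMapOfTendsto T (tendsto_pi_nhds.2 hf) with hm
  have hmf : ∀ v, m v = f v := fun v => rfl
  have hmM : m ∈ S.M := by
    suffices m ∈ S.M.commutant.commutant by
      rwa [VonNeumannAlgebra.commutant_commutant] at this
    rw [VonNeumannAlgebra.mem_commutant_iff]
    intro y hy
    ext v
    simp only [mul_apply_eq_comp, hmf]
    refine tendsto_nhds_unique ((y.continuous.tendsto _).comp (hf v)) ?_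
    have : ∀ j, y (T j v) = T j (y v) := fun j => by
      simpa only [mul_apply_eq_comp] using (congrArg (fun A : H →L[ℂ] H => A v)
        (VonNeumannAlgebra.mem_commutant_iff.1 hy _ (mem_M hB (hTB j)))).symm
    simpa only [Function.comp_def, this] using hf (y v)
  have hmΩ : m S.Ω = l := by
    rw [hmf]
    exact tendsto_nhds_unique (hf S.Ω) (by simpa only [hTΩ] using hl)
  have hlK : l ∈ KB hB :=
    (isClosed_KB hB).mem_of_tendsto hl (Eventually.of_forall fun j => by
      rw [← hTΩ]; exact apply_mem_KB hB (hTB j))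
  have hmB : m ∈ S.B := mem_of_KB hB hmM (by rw [hmΩ]; exact hlK)
  obtain ⟨c, hc⟩ := hB.fixed m hmB fun t => ext_Ω (D.σ_mem t m hmM) hmM
    (by rw [σ_Ω, hmΩ, hlfix])
  have hc' : c = (hatSq : ℂ) * S.φ b := by
    have h1 : Tendsto (fun j => ⟪S.Ω, avgU D j (b S.Ω)⟫_ℂ) atTop (𝓝 ⟪S.Ω, l⟫_ℂ) :=
      ((continuous_const.inner continuous_id).tendsto l).comp hl
    have h2 : ∀ j, ⟪S.Ω, avgU D j (b S.Ω)⟫_ℂ = (hatSq : ℂ) * S.φ b := by
      intro j
      rw [avgU_apply, ← integral_inner (integrable_avgU D j _)]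
      have : ∀ t, ⟪S.Ω, D.U t (b S.Ω)⟫_ℂ = S.φ b := fun t => by
        rw [← ContinuousLinearMap.adjoint_inner_left, ← ContinuousLinearMap.star_eq_adjoint,
          D.U_star, D.U_Ω]
        rfl
      simp only [inner_smul_right, this]
      rw [integral_mul_const, integral_ker2 (dj_pos j)]
    have h3 : ⟪S.Ω, l⟫_ℂ = c := by
      rw [← hmΩ, ← hc]
      simp [inner_self_eq_norm_sq_to_K, S.norm_Ω]
    rw [← h3]
    exact tendsto_nhds_unique h1 (by simp only [h2]; exact tendsto_const_nhds)
  have h := hf w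
  rw [← hmf, ← hc] at h
  simpa [hc'] using h

/-- The mean ergodic theorem in the form used by route A. -/
theorem ergodic (hB : BFacts D) {a : H →L[ℂ] H} (ha : a ∈ S.B) (w : H) :
    Tendsto (fun j => pmean (dj j) fun τ => hat (dj j) τ ^ 2 * ‖D.σ τ a w‖ ^ 2) atTop
      (𝓝 (hatSq * ‖a S.Ω‖ ^ 2 * ‖w‖ ^ 2)) := by
  have hb := hB.mul _ (hB.star_mem a ha) a ha
  have hc : Continuous fun v : H => RCLike.re ⟪w, v⟫_ℂ :=
    RCLike.continuous_re.comp (continuous_const.inner continuous_id)
  have h := (hc.tendsto _).comp (ergodic_op hB hb w)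
  have hval : RCLike.re ⟪w, ((hatSq : ℂ) * S.φ (star a * a)) • w⟫_ℂ
      = hatSq * ‖a S.Ω‖ ^ 2 * ‖w‖ ^ 2 := by
    rw [inner_smul_right, φ_star_mul, inner_self_eq_norm_sq_to_K, inner_self_eq_norm_sq_to_K]
    simp [← ofReal_pow, ← ofReal_mul]
  rw [hval] at h
  refine h.congr fun j => ?_
  have hδ := dj_pos j
  have e : ∀ τ, ⟪w, ker2 (dj j) τ • D.σ τ (star a * a) w⟫_ℂ
      = (((per (dj j))⁻¹ * (hat (dj j) τ ^ 2 * ‖D.σ τ a w‖ ^ 2) : ℝ) : ℂ) := fun τ => by
    rw [inner_smul_right, σ_mul, σ_star, mul_apply_eq_comp, ContinuousLinearMap.star_eq_adjoint,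
      ContinuousLinearMap.adjoint_inner_right, inner_self_eq_norm_sq_to_K, ker2]
    push_cast
    simp [mul_assoc]
  simp only [Function.comp, id, σint_apply]
  rw [← integral_inner (integrable_σ D (integrable_ker2 hδ) _ w)]
  simp only [e]
  rw [integral_complex_ofReal, RCLike.re_to_complex, ofReal_re, integral_const_mul,
    pmean_eq_integral hδ]
  intro τ hτ
  simp [hat_eq_zero hδ hτ]

end P132.RouteA
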