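import Vale.Agent.P132.RouteA.Basic
import Vale.Agent.P132.RouteA.Period

/-!
# P132 route A: the almost invariant matrices of Fourier coefficients

For `c` in the bicentralizer and `δ > 0` the matrix `e_kl = coef δ (k - l) (hat • σ c)` is bounded by
`‖c‖` and almost invariant up to `O(δ ‖c‖)`, so the key property of the flow applies to it.
-/

noncomputable section

set_option linter.unusedSectionVars false

namespace P132.RouteA

open MeasureTheory Complex Filter Topology
open scoped InnerProductSpace ComplexConjugate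

variable {H : Type*} [NormedAddCommGroup H] [InnerProductSpace ℂ H] [CompleteSpace H]
variable {S : Std H} {D : Modular S}

theorem coef_eq_integral {δ : ℝ} (hδ : 0 < δ) (m : ℤ) {G : ℝ → H}
    (hs : ∀ τ, per δ / 2 ≤ |τ| → G τ = 0) :
    coef δ m G = (((per δ)⁻¹ : ℝ) : ℂ) • ∫ τ, ch δ m τ • G τ := by
  have hP := per_pos hδ
  rw [coef, intervalIntegral.integral_eq_integral_of_support_subset]
  intro τ hτ
  have h : |τ| < per δ / 2 := lt_of_not_ge fun h => hτ (by simp [hs τ h])
  rw [abs_lt] at h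
  exact ⟨h.1, h.2.le⟩

/-- The kernel of the matrix entries. -/
def eker (δ : ℝ) (m : ℤ) (τ : ℝ) : ℂ := (((per δ)⁻¹ * hat δ τ : ℝ) : ℂ) * ch δ m τ

theorem integrable_eker {δ : ℝ} (hδ : 0 < δ) (m : ℤ) : Integrable (eker δ m) := by
  refine Continuous.integrable_of_hasCompactSupport (by unfold eker; fun_prop)
    (HasCompactSupport.intro (isCompact_Icc (a := -(per δ / 4)) (b := per δ / 4)) fun s hs => ?_)
  rw [Set.mem_Icc, ← abs_le, not_le] at hs
  simp [eker, hat_eq_zero hδ hs.le]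

/-- The matrix entries. -/
def ek (D : Modular S) {δ : ℝ} (hδ : 0 < δ) (c : H →L[ℂ] H) (m : ℤ) : H →L[ℂ] H :=
  σint D (eker δ m) (integrable_eker hδ m) c

/-- The vector function whose coefficients give the entries. -/
def hfun (D : Modular S) (δ : ℝ) (c : H →L[ℂ] H) (v : H) (τ : ℝ) : H :=
  (hat δ τ : ℂ) • D.σ τ c v

@[fun_prop]
theorem continuous_hfun (D : Modular S) (δ : ℝ) (c : H →L[ℂ] H) (v : H) :
    Continuous (hfun D δ c v) := by unfold hfun; fun_prop

theorem supp_hfun (D : Modular S) {δ : ℝ} (hδ : 0 < δ) (c : H →L[ℂ] H) (v : H) :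
    Supp δ (hfun D δ c v) := fun τ hτ => by simp [hfun, hat_eq_zero hδ hτ]

theorem ek_apply (D : Modular S) {δ : ℝ} (hδ : 0 < δ) (c : H →L[ℂ] H) (m : ℤ) (v : H) :
    ek D hδ c m v = coef δ m (hfun D δ c v) := by
  have hP := per_pos hδ
  rw [ek, σint_apply, coef_eq_integral hδ m (fun τ hτ => supp_hfun D hδ c v τ (by linarith)),
    ← integral_smul]
  refine integral_congr_ae (Eventually.of_forall fun τ => ?_)
  simp only [eker, hfun, smul_smul]
  push_cast
  ring_nf

theorem ek_mem (hB : BFacts D) {δ : ℝ} (hδ : 0 < δ) {c : H →L[ℂ] H} (hc : c ∈ S.B) (m : ℤ) :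
    ek D hδ c m ∈ S.B :=
  σint_mem hB _ hc

/-- Toeplitz matrices of coefficients are bounded by the sup norm. -/
theorem toeplitz_bound {δ : ℝ} (hδ : 0 < δ) {ι : Type*} [Fintype ι] (idx : ι → ℤ)
    (hidx : Function.Injective idx) (T : ℝ → H →L[ℂ] H) (hT : ∀ v, Continuous fun τ => T τ v)
    {M : ℝ} (hM : ∀ τ v, ‖T τ v‖ ≤ M * ‖v‖) (v : ι → H) :
    ∑ k, ‖∑ l, coef δ (idx k - idx l) (fun τ => T τ (v l))‖ ^ 2 ≤ M ^ 2 * ∑ l, ‖v l‖ ^ 2 := by
  classical
  set W : ℝ → H := fun τ => ∑ l, ch δ (-idx l) τ • v l with hW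
  have hG : (fun τ => T τ (W τ)) = fun τ => ∑ l, ch δ (-idx l) τ • T τ (v l) := by
    funext τ; simp only [hW, map_sum, map_smul]
  have hWc : Continuous W := by fun_prop
  have hGc : Continuous fun τ => T τ (W τ) := by
    rw [hG]; exact continuous_finsetSum _ fun l _ => (continuous_ch δ _).smul (hT _)
  have e : ∀ k : ι, ∑ l, coef δ (idx k - idx l) (fun τ => T τ (v l))
      = coef δ (idx k) fun τ => T τ (W τ) := by
    intro k
    simp only [coef, ← Finset.smul_sum]
    congr 1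
    rw [← intervalIntegral.integral_finsetSum
      (f := fun l τ => ch δ (idx k - idx l) τ • T τ (v l))
      fun l _ => ((continuous_ch δ _).smul (hT _)).intervalIntegrable _ _]
    refine intervalIntegral.integral_congr fun τ _ => ?_
    have hGτ : T τ (W τ) = ∑ l, ch δ (-idx l) τ • T τ (v l) := congrFun hG τ
    rw [hGτ]
    simp only [Finset.smul_sum, smul_smul, ch_mul, sub_eq_add_neg]
  simp only [e]
  have hb := bessel hδ hGc (Finset.univ.image idx)
  rw [Finset.sum_image fun a _ b _ h => hidx h] at hb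
  refine hb.trans ((pmean_mono hδ (hGc.norm.pow 2) (continuous_const.mul (hWc.norm.pow 2))
    (g := fun τ => M ^ 2 * ‖W τ‖ ^ 2) fun τ => ?_).trans_eq ?_)
  · rw [← mul_pow]; exact pow_le_pow_left₀ (norm_nonneg _) (hM τ _) 2
  rw [pmean_const_mul]
  congr 1
  set v' : ℤ → H := fun m => ∑ l ∈ Finset.univ.filter (fun l => idx l = m), v l with hv'
  have hv : ∀ l, v' (idx l) = v l := fun l => by
    rw [hv']
    simp only [hidx.eq_iff]
    exact Finset.sum_eq_single_of_mem l (by simp) (by simp)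
  have : W = trig δ (Finset.univ.image idx) v' := by
    funext τ
    simp only [hW, trig]
    rw [Finset.sum_image fun a _ b _ h => hidx h]
    simp only [hv]
  rw [this, pmean_norm_trig hδ, Finset.sum_image fun a _ b _ h => hidx h]
  simp only [hv]

/-- The indices. -/
def idx (n : ℕ) (i : Fin (2 * n + 1)) : ℤ := (i : ℤ) - n

theorem idx_injective (n : ℕ) : Function.Injective (idx n) := fun a b h => by
  apply Fin.ext
  unfold idx at h
  omega

theorem image_idx (n : ℕ) :
    Finset.univ.image (idx n) = Finset.Icc (-(n : ℤ)) n := by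
  ext m
  simp only [Finset.mem_image, Finset.mem_univ, true_and, Finset.mem_Icc]
  constructor
  · rintro ⟨i, rfl⟩
    have := i.2
    unfold idx
    omega
  · intro h
    exact ⟨⟨(m + n).toNat, by omega⟩, by unfold idx; simp only; omega⟩

theorem matBound_ek (D : Modular S) {δ : ℝ} (hδ : 0 < δ) (c : H →L[ℂ] H) (n : ℕ) :
    MatBound (fun k l => ek D hδ c (idx n k - idx n l)) ‖c‖ := by
  intro v
  simp only [ek_apply]
  refine toeplitz_bound hδ (idx n) (idx_injective n) (fun τ => (hat δ τ : ℂ) • D.σ τ c)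
    (fun w => by simp only [smul_apply]; fun_prop) (fun τ w => ?_) v
  rw [smul_apply, norm_smul, norm_real, Real.norm_of_nonneg (hat_nonneg _ _)]
  exact (mul_le_of_le_one_left (norm_nonneg _) (hat_le_one hδ τ)).trans
    ((D.σ τ c).le_of_opNorm_le (norm_σ_le D τ c) w)

/-- The levels. -/
def lev (δ : ℝ) (n : ℕ) (i : Fin (2 * n + 1)) : ℝ :=
  (idx n i : ℝ) * δ - Real.log (∑ j : Fin (2 * n + 1), Real.exp ((idx n j : ℝ) * δ))

theorem sum_exp_lev (δ : ℝ) (n : ℕ) : ∑ i, Real.exp (lev δ n i) = 1 := by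
  have hZ : 0 < ∑ j : Fin (2 * n + 1), Real.exp ((idx n j : ℝ) * δ) :=
    Finset.sum_pos (fun j _ => Real.exp_pos _) Finset.univ_nonempty
  simp only [lev, Real.exp_sub, Real.exp_log hZ]
  rw [← Finset.sum_div, div_self hZ.ne']

theorem matLip_ek (D : Modular S) {δ : ℝ} (hδ : 0 < δ) (c : H →L[ℂ] H) (n : ℕ) :
    MatLip D (lev δ n) (fun k l => ek D hδ c (idx n k - idx n l)) (8 * ‖c‖ / per δ) := by
  have hP := per_pos hδ
  intro t v
  rcases le_or_gt |t| (per δ / 4) with ht | ht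
  · have e : ∀ k l, (ampσ D (lev δ n) t (fun k l => ek D hδ c (idx n k - idx n l)) k l
        - ek D hδ c (idx n k - idx n l)) (v l)
        = coef δ (idx n k - idx n l)
            (fun τ => ((hat δ (τ - t) - hat δ τ : ℝ) : ℂ) • D.σ τ c (v l)) := by
      intro k l
      set m := idx n k - idx n l with hm
      have hlev : (lev δ n k - lev δ n l) * t = (m : ℝ) * δ * t := by
        simp only [lev, hm]; push_cast; ring
      have hsh : ∀ τ, per δ / 2 ≤ |τ| → hat δ (τ - t) = 0 := fun τ h =>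
        hat_eq_zero hδ (by linarith [abs_sub_abs_le_abs_sub τ t])
      have h1 : ampσ D (lev δ n) t (fun k l => ek D hδ c (idx n k - idx n l)) k l (v l)
          = coef δ m (fun τ => (hat δ (τ - t) : ℂ) • D.σ τ c (v l)) := by
        rw [coef_eq_integral hδ m fun τ h => by simp [hsh τ h]]
        simp only [ampσ, smul_apply, σ_apply D t, ← hm, ek, σint_apply]
        rw [← (D.U t).integral_comp_comm (integrable_σ D (integrable_eker hδ m) c _),
          ← integral_smul, ← integral_smul, ← integral_sub_right_eq_self _ t]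
        refine integral_congr_ae (Eventually.of_forall fun τ => ?_)
        simp only [map_smul, σ_apply, U_comp, eker, smul_smul]
        congr 1
        · rw [hlev, mul_comm I]
          have : ch δ m (τ - t) = ch δ m τ * ch δ m (-t) := by rw [← ch_add, sub_eq_add_neg]
          rw [this]
          have hh : Complex.exp ((((m : ℝ) * δ * t : ℝ) : ℂ) * I) * ch δ m (-t) = 1 := by
            rw [show Complex.exp ((((m : ℝ) * δ * t : ℝ) : ℂ) * I) = ch δ m t from rfl, ← ch_add,
              add_neg_cancel]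
            simp [ch]
          push_cast at hh ⊢
          linear_combination ((per δ : ℂ)⁻¹ * (hat δ (τ - t) : ℂ) * ch δ m τ) * hh
        · congr 3 <;> ring_nf
      rw [sub_apply, h1, ek_apply]
      simp only [coef, hfun, ← smul_sub]
      rw [← intervalIntegral.integral_sub]
      · congr 1
        refine intervalIntegral.integral_congr fun τ _ => ?_
        simp only [← smul_sub, ← sub_smul, ofReal_sub]
      · exact Continuous.intervalIntegrable (by fun_prop) _ _
      · exact Continuous.intervalIntegrable (by fun_prop) _ _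
    simp only [e]
    refine toeplitz_bound hδ (idx n) (idx_injective n)
      (fun τ => ((hat δ (τ - t) - hat δ τ : ℝ) : ℂ) • D.σ τ c)
      (fun w => by simp only [smul_apply]; fun_prop) (fun τ w => ?_) v
    rw [smul_apply, norm_smul, norm_real, Real.norm_eq_abs]
    refine (mul_le_mul (hat_lip hδ (τ - t) τ) ((D.σ τ c).le_of_opNorm_le (norm_σ_le D τ c) w)
      (norm_nonneg _) (by positivity)).trans ?_
    rw [show τ - t - τ = -t by ring, abs_neg, ← mul_assoc]
    refine mul_le_mul_of_nonneg_right ?_ (norm_nonneg w)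
    have h0 : 0 ≤ 4 / per δ * |t| * ‖c‖ := by positivity
    calc 4 / per δ * |t| * ‖c‖ ≤ 2 * (4 / per δ * |t| * ‖c‖) := by linarith
      _ = _ := by ring
  · have hbig : 2 * ‖c‖ ≤ 8 * ‖c‖ / per δ * |t| := by
      rw [div_mul_eq_mul_div, le_div_iff₀ hP]
      nlinarith [norm_nonneg c]
    set w : Fin (2 * n + 1) → H :=
      fun l => Complex.exp (-(I * (lev δ n l * t : ℝ))) • D.U (-t) (v l) with hw
    have hwn : ∑ l, ‖w l‖ ^ 2 = ∑ l, ‖v l‖ ^ 2 := by
      refine Finset.sum_congr rfl fun l _ => ?_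
      rw [hw, norm_smul, norm_U, Complex.norm_exp]
      simp
    have hA : ∀ k, ∑ l, ampσ D (lev δ n) t (fun k l => ek D hδ c (idx n k - idx n l)) k l (v l)
        = Complex.exp (I * (lev δ n k * t : ℝ)) •
          D.U t (∑ l, ek D hδ c (idx n k - idx n l) (w l)) := by
      intro k
      simp only [map_sum, Finset.smul_sum, hw, map_smul, smul_smul, ← Complex.exp_add, ampσ,
        smul_apply, σ_apply]
      refine Finset.sum_congr rfl fun l _ => ?_
      congr 2
      push_cast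
      ring
    have hb1 := matBound_ek D hδ c n w
    have hb2 := matBound_ek D hδ c n v
    calc ∑ k, ‖∑ l, (ampσ D (lev δ n) t (fun k l => ek D hδ c (idx n k - idx n l)) k l
          - ek D hδ c (idx n k - idx n l)) (v l)‖ ^ 2
        ≤ ∑ k, (2 * ‖∑ l, ek D hδ c (idx n k - idx n l) (w l)‖ ^ 2
            + 2 * ‖∑ l, ek D hδ c (idx n k - idx n l) (v l)‖ ^ 2) := by
          refine Finset.sum_le_sum fun k _ => ?_
          simp only [sub_apply]
          rw [Finset.sum_sub_distrib, hA]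
          refine (pow_le_pow_left₀ (norm_nonneg _) (norm_sub_le _ _) 2).trans ?_
          rw [norm_smul, norm_U, Complex.norm_exp]
          simp only [mul_re, I_re, zero_mul, I_im, one_mul, ofReal_im, sub_self, Real.exp_zero]
          exact add_sq_le.trans_eq (by ring)
      _ ≤ (2 * ‖c‖) ^ 2 * ∑ l, ‖v l‖ ^ 2 := by
          rw [Finset.sum_add_distrib, ← Finset.mul_sum, ← Finset.mul_sum]
          rw [hwn] at hb1
          calc 2 * ∑ k, ‖∑ l, ek D hδ c (idx n k - idx n l) (w l)‖ ^ 2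
                + 2 * ∑ k, ‖∑ l, ek D hδ c (idx n k - idx n l) (v l)‖ ^ 2
              ≤ 2 * (‖c‖ ^ 2 * ∑ l, ‖v l‖ ^ 2) + 2 * (‖c‖ ^ 2 * ∑ l, ‖v l‖ ^ 2) := by gcongr
            _ = _ := by ring
      _ ≤ _ := by gcongr

/-- Outer index range. -/
def outer (R δ : ℝ) : Finset ℤ := Finset.Icc (-(⌈R / δ⌉₊ : ℤ)) ⌈R / δ⌉₊

/-- Inner index range. -/
def inner' (ε δ : ℝ) : Finset ℤ := Finset.Icc (-(⌊ε / δ⌋₊ : ℤ)) ⌊ε / δ⌋₊

/-- The key property of the flow for the coefficient matrices, averaged over the small levels. -/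
theorem key_avg (hB : BFacts D) (F : Flow D) {x c : H →L[ℂ] H} (hx : x ∈ S.B) (hc : c ∈ S.B)
    {R ε1 γ : ℝ} (hε1 : 0 < ε1) (hεR : ε1 ≤ R) (hγ : 0 < γ) :
    ∀ᶠ δ in 𝓝[>] (0 : ℝ), ∀ hδ : 0 < δ,
      ∑ l ∈ inner' ε1 δ, ∑ k ∈ outer R δ,
        ‖(F.β (k * δ) x * ek D hδ c (k - l) - ek D hδ c (k - l) * F.β (l * δ) x) S.Ω‖ ^ 2
        ≤ γ * (inner' ε1 δ).card := by
  have hR : 0 < R := hε1.trans_le hεR
  set ε := γ * ε1 / ((2 * R + 3) * Real.exp (R + 1 + ε1)) with hε
  have hεpos : 0 < ε := by positivity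
  obtain ⟨η, hη, hkey⟩ := F.key x hx ‖c‖ ε hεpos
  have hev : ∀ᶠ δ in 𝓝[>] (0 : ℝ), δ ≤ 1 ∧ δ ≤ ε1 ∧ 8 * ‖c‖ / per δ ≤ η := by
    refine Eventually.filter_mono nhdsWithin_le_nhds (Eventually.and (eventually_le_nhds one_pos)
      (Eventually.and (eventually_le_nhds hε1) ?_))
    have : ∀ δ : ℝ, 8 * ‖c‖ / per δ = 8 * ‖c‖ / (2 * Real.pi) * δ := fun δ => by
      rw [per, div_div_eq_mul_div]; ring
    simp only [this]
    have ht : Tendsto (fun δ : ℝ => 8 * ‖c‖ / (2 * Real.pi) * δ) (𝓝 0) (𝓝 0) := by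
      simpa using (tendsto_id (α := ℝ) (x := 𝓝 0)).const_mul (8 * ‖c‖ / (2 * Real.pi))
    exact ht.eventually (eventually_le_nhds hη)
  filter_upwards [hev] with δ hev hδ
  obtain ⟨hδ1, hδε, hδη⟩ := hev
  set n := ⌈R / δ⌉₊ with hn
  set e := fun k l : Fin (2 * n + 1) => ek D hδ c (idx n k - idx n l) with he
  have hlip : MatLip D (lev δ n) e η := fun t v =>
    (matLip_ek D hδ c n t v).trans (by have := per_pos hδ; gcongr)
  set Z := ∑ j : Fin (2 * n + 1), Real.exp ((idx n j : ℝ) * δ) with hZ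
  have hZ0 : 0 < Z := Finset.sum_pos (fun j _ => Real.exp_pos _) Finset.univ_nonempty
  have h := hkey (2 * n + 1) (lev δ n) (Real.log Z) e (sum_exp_lev δ n)
    (fun k l => ek_mem hB hδ hc _) (matBound_ek D hδ c n) hlip
  set f := fun k l : ℤ =>
    ‖(F.β (k * δ) x * ek D hδ c (k - l) - ek D hδ c (k - l) * F.β (l * δ) x) S.Ω‖ ^ 2 with hf
  have hlevZ : ∀ i, lev δ n i + Real.log Z = (idx n i : ℝ) * δ := fun i => by
    rw [lev, sub_add_cancel]
  simp only [hlevZ, he] at h
  have h' : ∑ l ∈ Finset.Icc (-(n : ℤ)) n, ∑ k ∈ Finset.Icc (-(n : ℤ)) n,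
      Real.exp ((l : ℝ) * δ) * f k l ≤ ε * Z := by
    rw [← image_idx n, Finset.sum_image fun a _ b _ hab => idx_injective n hab, Finset.sum_comm' (t' := Finset.univ.image (idx n)) (s' := fun _ => Finset.univ) (by simp)]
    rw [Finset.sum_image fun a _ b _ hab => idx_injective n hab]
    refine le_trans (le_of_eq ?_) ((mul_le_mul_iff_of_pos_right hZ0).2 h)
    rw [Finset.sum_mul]
    refine Finset.sum_congr rfl fun k _ => ?_
    rw [Finset.sum_mul]
    refine Finset.sum_congr rfl fun l _ => ?_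
    rw [hf, lev, Real.exp_sub, Real.exp_log hZ0, div_mul_eq_mul_div, div_mul_cancel₀ _ hZ0.ne']
  have hn2 : (n : ℝ) * δ ≤ R + 1 := by
    have h1 := Nat.ceil_lt_add_one (show 0 ≤ R / δ by positivity)
    rw [← hn, div_add_one hδ.ne', lt_div_iff₀ hδ] at h1
    linarith
  have hZle : Z ≤ (2 * n + 1) * Real.exp (R + 1) := by
    refine (Finset.sum_le_card_nsmul _ _ (Real.exp (R + 1)) fun j _ => ?_).trans_eq ?_
    · refine Real.exp_le_exp.2 (le_trans ?_ hn2)
      refine mul_le_mul_of_nonneg_right ?_ hδ.le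
      have := j.2
      have : idx n j ≤ (n : ℤ) := by unfold idx; omega
      exact_mod_cast this
    · simp
  have hsub : inner' ε1 δ ⊆ Finset.Icc (-(n : ℤ)) n := by
    have hle : ⌊ε1 / δ⌋₊ ≤ n :=
      (Nat.floor_le_floor (by gcongr)).trans (Nat.floor_le_ceil _)
    refine Finset.Icc_subset_Icc ?_ ?_ <;> omega
  have hw : ∀ l ∈ inner' ε1 δ, Real.exp (-ε1) ≤ Real.exp ((l : ℝ) * δ) := by
    intro l hl
    refine Real.exp_le_exp.2 ?_
    rw [inner', Finset.mem_Icc] at hl
    have h1 : -((⌊ε1 / δ⌋₊ : ℝ)) ≤ (l : ℝ) := by exact_mod_cast hl.1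
    have h2 := Nat.floor_le (show 0 ≤ ε1 / δ by positivity)
    rw [le_div_iff₀ hδ] at h2
    nlinarith
  have hf0 : ∀ k l, 0 ≤ f k l := fun k l => sq_nonneg _
  have h3 : Real.exp (-ε1) * ∑ l ∈ inner' ε1 δ, ∑ k ∈ outer R δ, f k l ≤ ε * Z := by
    refine le_trans ?_ h'
    rw [Finset.mul_sum]
    refine le_trans (Finset.sum_le_sum fun l hl => ?_) (Finset.sum_le_sum_of_subset_of_nonneg hsub
      fun l _ _ => Finset.sum_nonneg fun k _ => mul_nonneg (Real.exp_pos _).le (hf0 k l))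
    rw [Finset.mul_sum]
    exact Finset.sum_le_sum fun k _ => mul_le_mul_of_nonneg_right (hw l hl) (hf0 k l)
  have hcard : ε1 / δ ≤ ((inner' ε1 δ).card : ℝ) := by
    rw [inner', Int.card_Icc]
    have h1 := Nat.lt_floor_add_one (ε1 / δ)
    have e1 : ((⌊ε1 / δ⌋₊ : ℤ) + 1 - -(⌊ε1 / δ⌋₊ : ℤ)).toNat = 2 * ⌊ε1 / δ⌋₊ + 1 := by omega
    rw [e1]
    push_cast
    linarith [Nat.cast_nonneg (α := ℝ) ⌊ε1 / δ⌋₊]
  have h4 : (2 * (n : ℝ) + 1) ≤ (2 * R + 3) / δ := by
    rw [le_div_iff₀ hδ]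
    have h1 := Nat.ceil_lt_add_one (show 0 ≤ R / δ by positivity)
    rw [← hn, div_add_one hδ.ne', lt_div_iff₀ hδ] at h1
    linarith
  calc ∑ l ∈ inner' ε1 δ, ∑ k ∈ outer R δ, f k l
      = Real.exp ε1 * (Real.exp (-ε1) * ∑ l ∈ inner' ε1 δ, ∑ k ∈ outer R δ, f k l) := by
        rw [← mul_assoc, ← Real.exp_add, add_neg_cancel, Real.exp_zero, one_mul]
    _ ≤ Real.exp ε1 * (ε * ((2 * R + 3) / δ * Real.exp (R + 1))) := by
        refine mul_le_mul_of_nonneg_left (h3.trans (mul_le_mul_of_nonneg_left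
          (hZle.trans ?_) hεpos.le)) (Real.exp_pos _).le
        gcongr
    _ = γ * (ε1 / δ) := by
        rw [hε, Real.exp_add (R + 1) ε1]
        field_simp
    _ ≤ γ * (inner' ε1 δ).card := by gcongr

end P132.RouteA
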